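import Vale.Agent.P207.R2.H797.Est

/-!
# P207: open cones of directions
-/

open scoped Manifold ContDiff ENNReal Topology
open Bundle MeasureTheory Set Filter

noncomputable section

namespace Vale.Agent.P207.R2.H797

open Vale.Agent.P207
open Vale.Agent.P255 (RMetric coefIn coefL)

theorem inv_one_sub_pow_le (k : ℕ) : ∃ C : ℝ, 0 ≤ C ∧ ∀ δ : ℝ, 0 < δ → δ ≤ 1 / 2 →
    (1 - δ)⁻¹ ^ k ≤ 1 + k * δ + C * δ ^ 2 ∧ (1 + δ)⁻¹ ^ k ≤ 1 - k * δ + C * δ ^ 2 := by
  induction k with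
  | zero => exact ⟨0, le_rfl, fun δ _ _ => by simp⟩
  | succ k ih =>
    obtain ⟨C, hC, h⟩ := ih
    refine ⟨2 + 3 * k + 4 * C, by positivity, fun δ hδ hδ1 => ?_⟩
    obtain ⟨h1, h2⟩ := h δ hδ hδ1
    have hk : (0 : ℝ) ≤ k := Nat.cast_nonneg k
    have a1 : (1 - δ)⁻¹ ≤ 1 + δ + 2 * δ ^ 2 := by
      rw [inv_le_iff_one_le_mul₀ (by linarith)]
      nlinarith [mul_nonneg (sq_nonneg δ) (sub_nonneg.2 hδ1)]
    have b1 : (1 + δ)⁻¹ ≤ 1 - δ + δ ^ 2 := by
      rw [inv_le_iff_one_le_mul₀ (by linarith)]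
      nlinarith [pow_pos hδ 3]
    have a0 : 0 < (1 - δ)⁻¹ := inv_pos.2 (by linarith)
    have b0 : 0 < (1 + δ)⁻¹ := inv_pos.2 (by linarith)
    have hd2 : 0 ≤ δ ^ 2 := sq_nonneg δ
    constructor
    · rw [pow_succ]
      calc (1 - δ)⁻¹ ^ k * (1 - δ)⁻¹ ≤ (1 + k * δ + C * δ ^ 2) * (1 + δ + 2 * δ ^ 2) :=
            mul_le_mul h1 a1 a0.le (by positivity)
        _ = 1 + (k + 1) * δ + (2 + k + C) * δ ^ 2 + (2 * k + C) * (δ * δ ^ 2) +
            2 * C * (δ ^ 2 * δ ^ 2) := by ring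
        _ ≤ 1 + (k + 1) * δ + (2 + k + C) * δ ^ 2 + (2 * k + C) * (1 * δ ^ 2) +
            2 * C * (1 * δ ^ 2) := by
            have e1 : δ * δ ^ 2 ≤ 1 * δ ^ 2 := mul_le_mul_of_nonneg_right (by linarith) hd2
            have e2 : δ ^ 2 * δ ^ 2 ≤ 1 * δ ^ 2 :=
              mul_le_mul_of_nonneg_right (by nlinarith) hd2
            have e3 : (2 * k + C) * (δ * δ ^ 2) ≤ (2 * k + C) * (1 * δ ^ 2) :=
              mul_le_mul_of_nonneg_left e1 (by positivity)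
            have e4 : 2 * C * (δ ^ 2 * δ ^ 2) ≤ 2 * C * (1 * δ ^ 2) :=
              mul_le_mul_of_nonneg_left e2 (by positivity)
            linarith
        _ = _ := by push_cast; ring
    · rw [pow_succ]
      have h3 : 0 ≤ 1 - k * δ + C * δ ^ 2 := (by positivity : (0 : ℝ) ≤ (1 + δ)⁻¹ ^ k).trans h2
      calc (1 + δ)⁻¹ ^ k * (1 + δ)⁻¹ ≤ (1 - k * δ + C * δ ^ 2) * (1 - δ + δ ^ 2) :=
            mul_le_mul h2 b1 b0.le h3
        _ = 1 - (k + 1) * δ + (1 + k + C) * δ ^ 2 - (k + C) * (δ * δ ^ 2) +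
            C * (δ ^ 2 * δ ^ 2) := by ring
        _ ≤ 1 - (k + 1) * δ + (1 + k + C) * δ ^ 2 - 0 + C * (1 * δ ^ 2) := by
            have e1 : 0 ≤ (k + C) * (δ * δ ^ 2) := by positivity
            have e2 : δ ^ 2 * δ ^ 2 ≤ 1 * δ ^ 2 :=
              mul_le_mul_of_nonneg_right (by nlinarith) hd2
            have e4 : C * (δ ^ 2 * δ ^ 2) ≤ C * (1 * δ ^ 2) :=
              mul_le_mul_of_nonneg_left e2 hC
            linarith
        _ ≤ _ := by
            push_cast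
            nlinarith [mul_nonneg hk hd2, mul_nonneg hC hd2]

theorem ck_le (k : ℕ) : ∃ C : ℝ, 0 ≤ C ∧ ∀ δ : ℝ, 0 < δ → δ ≤ 1 / 2 → ck k δ ≤ 1 + C * δ ^ 2 := by
  obtain ⟨C, hC, h⟩ := inv_one_sub_pow_le k
  refine ⟨C, hC, fun δ hδ hδ1 => ?_⟩
  obtain ⟨h1, h2⟩ := h δ hδ hδ1
  unfold ck
  linarith

theorem ck_mul_le (k l : ℕ) : ∃ C : ℝ, 0 ≤ C ∧ ∀ δ : ℝ, 0 < δ → δ ≤ 1 / 2 →
    ck k δ * ck l δ ≤ 1 + C * δ ^ 2 := by
  obtain ⟨A, hA, ha⟩ := ck_le k
  obtain ⟨B, hB, hb⟩ := ck_le l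
  refine ⟨A + B + A * B, by positivity, fun δ hδ hδ1 => ?_⟩
  have h1 := ha δ hδ hδ1
  have h2 := hb δ hδ hδ1
  have h3 := ck_pos hδ (by linarith) l
  have hd2 : 0 ≤ δ ^ 2 := sq_nonneg δ
  calc ck k δ * ck l δ ≤ (1 + A * δ ^ 2) * (1 + B * δ ^ 2) :=
        mul_le_mul h1 h2 h3.le (by positivity)
    _ = 1 + (A + B) * δ ^ 2 + A * B * (δ ^ 2 * δ ^ 2) := by ring
    _ ≤ 1 + (A + B) * δ ^ 2 + A * B * (1 * δ ^ 2) := by
        have e2 : δ ^ 2 * δ ^ 2 ≤ 1 * δ ^ 2 := mul_le_mul_of_nonneg_right (by nlinarith) hd2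
        have e4 : A * B * (δ ^ 2 * δ ^ 2) ≤ A * B * (1 * δ ^ 2) :=
          mul_le_mul_of_nonneg_left e2 (by positivity)
        linarith
    _ = _ := by ring

/-- powers and differences -/
theorem sub_mul_pow_sub {a b : ℝ} (ha : 1 / 2 ≤ a) (hb : 1 / 2 ≤ b) {k : ℕ} (hk : 1 ≤ k) :
    (1 / 2) ^ (k - 1) * (a - b) ^ 2 ≤ (a - b) * (a ^ k - b ^ k) := by
  obtain ⟨j, rfl⟩ : ∃ j, k = j + 1 := ⟨k - 1, by omega⟩
  simp only [Nat.add_sub_cancel]
  induction j with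
  | zero => simp; ring_nf; exact le_rfl
  | succ j ih =>
    have ih := ih (by omega)
    -- `a^(j+2) - b^(j+2) = a (a^(j+1) - b^(j+1)) + b^(j+1) (a - b)`
    have h1 : (a - b) * (a ^ (j + 1 + 1) - b ^ (j + 1 + 1)) =
        a * ((a - b) * (a ^ (j + 1) - b ^ (j + 1))) + b ^ (j + 1) * (a - b) ^ 2 := by ring
    rw [h1]
    have h2 : (1 / 2 : ℝ) * ((1 / 2) ^ j * (a - b) ^ 2) ≤
        a * ((a - b) * (a ^ (j + 1) - b ^ (j + 1))) :=
      mul_le_mul ha ih (by positivity) (by linarith)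
    have h3 : 0 ≤ b ^ (j + 1) * (a - b) ^ 2 := by
      have : 0 ≤ b := by linarith
      positivity
    calc (1 / 2 : ℝ) ^ (j + 1) * (a - b) ^ 2 = 1 / 2 * ((1 / 2) ^ j * (a - b) ^ 2) := by ring
      _ ≤ _ := by linarith

section Int

variable {X : Type} [TopologicalSpace X] [CompactSpace X] [MeasurableSpace X] [BorelSpace X]
  (μ : Measure X) [IsFiniteMeasure μ]

/-- Chebyshev's inequality with the variance -/
theorem chebyshev_var {f : X → ℝ} (hf : Continuous f) (hf2 : ∀ x, 1 / 2 ≤ f x) {k : ℕ}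
    (hk : 1 ≤ k) (hV : 0 < μ.real univ) :
    (∫ x, f x ∂μ) * (∫ x, f x ^ k ∂μ) + μ.real univ * ((1 / 2) ^ (k - 1) *
      ∫ x, (f x - (∫ y, f y ∂μ) / μ.real univ) ^ 2 ∂μ) ≤
        μ.real univ * ∫ x, f x ^ (k + 1) ∂μ := by
  have hint : ∀ {h : X → ℝ}, Continuous h → Integrable h μ := fun hh =>
    hh.integrable_of_hasCompactSupport (HasCompactSupport.of_compactSpace _)
  set V := μ.real univ with hVd
  set s := (∫ y, f y ∂μ) / V with hs
  have hsV : ∫ x, f x ∂μ = s * V := by rw [hs, div_mul_cancel₀ _ hV.ne']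
  have hs2 : 1 / 2 ≤ s := by
    rw [hs, le_div_iff₀ hV]
    have h1 : ∫ _ : X, (1 / 2 : ℝ) ∂μ ≤ ∫ x, f x ∂μ :=
      integral_mono (integrable_const _) (hint hf) hf2
    rw [integral_const, smul_eq_mul] at h1
    linarith
  have i1 : Integrable (fun x => f x ^ (k + 1)) μ := hint (hf.pow _)
  have i2 : Integrable (fun x => s * f x ^ k) μ := hint (continuous_const.mul (hf.pow _))
  have i3 : Integrable (fun x => s ^ k * f x) μ := hint (continuous_const.mul hf)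
  have i4 : Integrable (fun _ : X => s ^ (k + 1)) μ := integrable_const _
  have hI : ∫ x, (f x - s) * (f x ^ k - s ^ k) ∂μ =
      ((∫ x, f x ^ (k + 1) ∂μ) - s * ∫ x, f x ^ k ∂μ) -
        (s ^ k * (∫ x, f x ∂μ) - V * s ^ (k + 1)) := by
    calc ∫ x, (f x - s) * (f x ^ k - s ^ k) ∂μ =
        ∫ x, ((f x ^ (k + 1) - s * f x ^ k) - (s ^ k * f x - s ^ (k + 1))) ∂μ := by
          congr 1
          funext x
          ring
      _ = (∫ x, (f x ^ (k + 1) - s * f x ^ k) ∂μ) -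
          ∫ x, (s ^ k * f x - s ^ (k + 1)) ∂μ := integral_sub (i1.sub i2) (i3.sub i4)
      _ = _ := by
          rw [integral_sub i1 i2, integral_sub i3 i4, integral_const_mul, integral_const_mul,
            integral_const, smul_eq_mul]
  have h1 : s ^ k * (s * V) - V * s ^ (k + 1) = 0 := by ring
  rw [hsV, h1, sub_zero] at hI
  have h2 : (1 / 2) ^ (k - 1) * ∫ x, (f x - s) ^ 2 ∂μ ≤
      ∫ x, (f x - s) * (f x ^ k - s ^ k) ∂μ := by
    rw [← integral_const_mul]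
    refine integral_mono (hint (continuous_const.mul ((hf.sub continuous_const).pow 2)))
      (hint ((hf.sub continuous_const).mul ((hf.pow k).sub continuous_const))) fun x => ?_
    exact sub_mul_pow_sub (hf2 x) hs2 hk
  rw [hI] at h2
  rw [hsV]
  have h3 := mul_le_mul_of_nonneg_left h2 hV.le
  calc s * V * (∫ x, f x ^ k ∂μ) + V * ((1 / 2) ^ (k - 1) * ∫ x, (f x - s) ^ 2 ∂μ)
      ≤ s * V * (∫ x, f x ^ k ∂μ) + V * ((∫ x, f x ^ (k + 1) ∂μ) - s * ∫ x, f x ^ k ∂μ) := by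
        linarith
    _ = _ := by ring

/-- the variance of a function near `1 + t w` -/
theorem var_ge {f w : X → ℝ} (hf : Continuous f) (hw : Continuous w) (hV : 0 < μ.real univ)
    {t η : ℝ} (hη : 0 ≤ η) (h : ∀ x, |f x - 1 - t * w x| ≤ η * |t|) :
    t ^ 2 * ((∫ x, (w x - (∫ y, w y ∂μ) / μ.real univ) ^ 2 ∂μ) / 2 -
      4 * η ^ 2 * μ.real univ) ≤ ∫ x, (f x - (∫ y, f y ∂μ) / μ.real univ) ^ 2 ∂μ := by
  have hint : ∀ {h : X → ℝ}, Continuous h → Integrable h μ := fun hh =>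
    hh.integrable_of_hasCompactSupport (HasCompactSupport.of_compactSpace _)
  set V := μ.real univ with hVd
  set s := (∫ y, f y ∂μ) / V with hs
  set r := (∫ y, w y ∂μ) / V with hr
  have hsV : ∫ x, f x ∂μ = s * V := by rw [hs, div_mul_cancel₀ _ hV.ne']
  have hrV : ∫ x, w x ∂μ = r * V := by rw [hr, div_mul_cancel₀ _ hV.ne']
  have ie : Integrable (fun x => f x - 1 - t * w x) μ :=
    hint ((hf.sub continuous_const).sub (continuous_const.mul hw))
  have jf : Integrable (fun x => f x) μ := hint hf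
  have j0 : Integrable (fun _ : X => (1 : ℝ)) μ := integrable_const _
  have j1 : Integrable (fun x => f x - 1) μ := jf.sub j0
  have jw : Integrable (fun x => t * w x) μ := hint (continuous_const.mul hw)
  have h1 : |s - 1 - t * r| ≤ η * |t| := by
    have h2 : ∫ x, (f x - 1 - t * w x) ∂μ = (s - 1 - t * r) * V := by
      rw [integral_sub j1 jw, integral_sub jf j0, integral_const_mul, integral_const, hsV, hrV,
        smul_eq_mul]
      ring
    have h3 : |∫ x, (f x - 1 - t * w x) ∂μ| ≤ ∫ _ : X, η * |t| ∂μ := by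
      refine (abs_integral_le_integral_abs).trans ?_
      exact integral_mono ie.abs (integrable_const _) h
    rw [h2, integral_const, smul_eq_mul, abs_mul, abs_of_pos hV] at h3
    have h4 : |s - 1 - t * r| * V ≤ (η * |t|) * V := by
      calc |s - 1 - t * r| * V ≤ V * (η * |t|) := h3
        _ = _ := mul_comm _ _
    exact le_of_mul_le_mul_right h4 hV
  have hconst : ∫ _ : X, t ^ 2 * (4 * η ^ 2) ∂μ = V * (t ^ 2 * (4 * η ^ 2)) := by
    rw [integral_const, smul_eq_mul]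
  have h5 : t ^ 2 * ((∫ x, (w x - r) ^ 2 ∂μ) / 2 - 4 * η ^ 2 * V) =
      ∫ x, (t ^ 2 / 2 * (w x - r) ^ 2 - t ^ 2 * (4 * η ^ 2)) ∂μ := by
    have j2 : Integrable (fun x => t ^ 2 / 2 * (w x - r) ^ 2) μ :=
      hint (continuous_const.mul ((hw.sub continuous_const).pow 2))
    have j3 : Integrable (fun _ : X => t ^ 2 * (4 * η ^ 2)) μ := integrable_const _
    rw [integral_sub j2 j3, integral_const_mul, hconst]
    ring
  rw [h5]
  refine integral_mono (hint ((continuous_const.mul ((hw.sub continuous_const).pow 2)).sub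
    continuous_const)) (hint ((hf.sub continuous_const).pow 2)) fun x => ?_
  simp only
  set d := (f x - 1 - t * w x) - (s - 1 - t * r) with hd
  have h6 : f x - s = t * (w x - r) + d := by rw [hd]; ring
  have h7 : |d| ≤ 2 * (η * |t|) := by
    refine (abs_sub _ _).trans ?_
    linarith [h x]
  have h8 : d ^ 2 ≤ 4 * η ^ 2 * t ^ 2 := by
    have h9 : d ^ 2 ≤ (2 * (η * |t|)) ^ 2 := by
      rw [← sq_abs d]
      exact pow_le_pow_left₀ (abs_nonneg d) h7 2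
    calc d ^ 2 ≤ (2 * (η * |t|)) ^ 2 := h9
      _ = 4 * η ^ 2 * |t| ^ 2 := by ring
      _ = _ := by rw [sq_abs]
  rw [h6]
  nlinarith [sq_nonneg (t * (w x - r) + 2 * d)]

end Int

variable {n : ℕ} {M : Type} [TopologicalSpace M] [ChartedSpace (EV n) M]
  [IsManifold 𝓘(ℝ, EV n) ∞ M] [CompactSpace M] [T2Space M] [MeasurableSpace M] [BorelSpace M]

/-- **The cone.** The product of the two averages is less than one, with a uniform gap of order
`t ^ 2`. -/
theorem cone (hn : 2 ≤ n) (g : RMetric (EV n) M) {w : M → ℝ} (hw : Continuous w)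
    (hne : ∃ x y, w x ≠ w y) {μ : Measure M} {m : Measure (UT g)} (hμ : IsRiemVol g μ)
    (hm : IsLiouville g μ m) :
    ∃ η t₀ κ : ℝ, 0 < η ∧ 0 < t₀ ∧ 0 < κ ∧ κ * t₀ ^ 2 < 1 ∧
      ∀ (g₁ : RMetric (EV n) M) (μ₁ : Measure M) (m₁ : Measure (UT g₁)) (t : ℝ), t ≠ 0 →
        |t| ≤ t₀ → (∀ p : UT g, |nrm g g₁ p - 1 - t * w p.pt| ≤ η * |t|) → IsRiemVol g₁ μ₁ →
        IsLiouville g₁ μ₁ m₁ →
        (∫ p, nrm g g₁ p ∂m) * (∫ p, nrm g₁ g p ∂m₁) ≤ 1 - κ * t ^ 2 := by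
  have hn1 : 1 ≤ n := by omega
  have hfin := hμ.isFiniteMeasure
  have hop := hμ.isOpenPosMeasure
  have hV := hm.vol_pos
  have hint : ∀ {h : M → ℝ}, Continuous h → Integrable h μ := fun hh =>
    hh.integrable_of_hasCompactSupport (HasCompactSupport.of_compactSpace _)
  set V := μ.real univ with hVd
  set r := (∫ y, w y ∂μ) / V with hr
  set Q := ∫ x, (w x - r) ^ 2 ∂μ with hQ
  have hQ0 : 0 < Q := by
    have hex : ∃ x, w x ≠ r := by
      by_contra hcon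
      push Not at hcon
      obtain ⟨x, y, hxy⟩ := hne
      exact hxy ((hcon x).trans (hcon y).symm)
    obtain ⟨x, hx⟩ := hex
    exact ((hw.sub continuous_const).pow 2).integral_pos_of_hasCompactSupport_nonneg_nonzero
      (μ := μ) (HasCompactSupport.of_compactSpace _) (fun x => sq_nonneg _) (x := x)
      (pow_ne_zero _ (sub_ne_zero.2 hx))
  obtain ⟨W, hW⟩ : ∃ W : ℝ, ∀ x, |w x| ≤ W := by
    obtain ⟨C, hC⟩ := isCompact_univ.exists_bound_of_continuousOn (f := w) hw.continuousOn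
    exact ⟨C, fun x => hC x (mem_univ x)⟩
  obtain ⟨C, hC, hck⟩ := ck_mul_le n (n + 1)
  -- the constants
  set a : ℝ := (1 / 2) ^ (n - 2) with ha
  have ha0 : 0 < a := by positivity
  set b : ℝ := (3 / 2) ^ n with hb
  have hb0 : 0 < b := by positivity
  -- `16 C η² b V ≤ a Q / 8` and `4 η² V ≤ Q / 4`
  obtain ⟨η, hη, hη1, hη2, hη3⟩ : ∃ η : ℝ, 0 < η ∧ η ≤ 1 ∧ 4 * η ^ 2 * V ≤ Q / 4 ∧
      16 * C * η ^ 2 * (V * b) ≤ a * Q / 8 := by
    have hc : Continuous fun η : ℝ => (4 * η ^ 2 * V, 16 * C * η ^ 2 * (V * b)) := by fun_prop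
    have h1 : ∀ᶠ η : ℝ in 𝓝 0, 4 * η ^ 2 * V < Q / 4 := by
      have hc : Continuous fun η : ℝ => 4 * η ^ 2 * V := by fun_prop
      refine hc.continuousAt.eventually_lt continuousAt_const ?_
      simpa using hQ0
    have h2 : ∀ᶠ η : ℝ in 𝓝 0, 16 * C * η ^ 2 * (V * b) < a * Q / 8 := by
      have hc : Continuous fun η : ℝ => 16 * C * η ^ 2 * (V * b) := by fun_prop
      refine hc.continuousAt.eventually_lt continuousAt_const ?_
      simpa using mul_pos ha0 hQ0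
    have h3 : ∀ᶠ η : ℝ in 𝓝 0, η < 1 := (tendsto_order.1 tendsto_id).2 _ zero_lt_one
    have h4 := ((h1.and (h2.and h3)).filter_mono (nhdsWithin_le_nhds (s := Ioi (0 : ℝ)))).and
      self_mem_nhdsWithin
    obtain ⟨η, ⟨k1, k2, k3⟩, k4⟩ := h4.exists
    exact ⟨η, k4, k3.le, k1.le, k2.le⟩
  have hW0 : 0 ≤ |W| := abs_nonneg W
  set t₁ : ℝ := 1 / (8 * (|W| + 1)) with ht₁
  have ht₁0 : 0 < t₁ := by positivity
  set κ : ℝ := a * Q / (8 * (V * b)) with hκ
  have hκ0 : 0 < κ := by positivity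
  obtain ⟨t₀, ht₀, ht₀1, ht₀2⟩ : ∃ t₀ : ℝ, 0 < t₀ ∧ t₀ ≤ t₁ ∧ κ * t₀ ^ 2 < 1 := by
    have h1 : ∀ᶠ s : ℝ in 𝓝 0, κ * s ^ 2 < 1 := by
      have hc : Continuous fun s : ℝ => κ * s ^ 2 := by fun_prop
      refine hc.continuousAt.eventually_lt continuousAt_const ?_
      simp
    have h3 : ∀ᶠ s : ℝ in 𝓝 0, s < t₁ := (tendsto_order.1 tendsto_id).2 _ ht₁0
    have h4 := ((h1.and h3).filter_mono (nhdsWithin_le_nhds (s := Ioi (0 : ℝ)))).and
      self_mem_nhdsWithin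
    obtain ⟨s, ⟨k1, k2⟩, k4⟩ := h4.exists
    exact ⟨s, k4, k2.le, k1⟩
  refine ⟨η, t₀, κ, hη, ht₀, hκ0, ht₀2, fun g₁ μ₁ m₁ t ht htt h hμ₁ hm₁ => ?_⟩
  have hat : 0 < |t| := abs_pos.2 ht
  have hat1 : |t| ≤ t₁ := htt.trans ht₀1
  have htW : |t| * (|W| + 1) ≤ 1 / 8 := by
    calc |t| * (|W| + 1) ≤ t₁ * (|W| + 1) := mul_le_mul_of_nonneg_right hat1 (by positivity)
      _ = 1 / 8 := by rw [ht₁]; field_simp
  have htw : ∀ x, |t * w x| ≤ 1 / 8 := by
    intro x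
    rw [abs_mul]
    have h1 : |w x| ≤ |W| + 1 := (hW x).trans ((le_abs_self W).trans (by linarith))
    exact (mul_le_mul_of_nonneg_left h1 hat.le).trans htW
  have ht8 : |t| ≤ 1 / 8 := by nlinarith
  have hηt : η * |t| ≤ 1 / 8 := by nlinarith
  -- the mean stretch
  have hU : ∀ x, |U g g₁ x - 1 - t * w x| ≤ η * |t| := by
    intro x
    rw [abs_le]
    constructor
    · have h1 := sphAvg_mono g (a := fun _ => 1 + t * w x - η * |t|) continuous_const
        (continuous_nrm g g₁) x fun p hp => by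
          have h2 := (abs_le.1 (h p)).1
          rw [hp] at h2
          linarith
      rw [sphAvg_const hn1] at h1
      change _ ≤ U g g₁ x at h1
      linarith
    · have h1 := sphAvg_mono g (b := fun _ => 1 + t * w x + η * |t|) (continuous_nrm g g₁)
        continuous_const x fun p hp => by
          have h2 := (abs_le.1 (h p)).2
          rw [hp] at h2
          linarith
      rw [sphAvg_const hn1] at h1
      change U g g₁ x ≤ _ at h1
      linarith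
  have hU2 : ∀ x, 1 / 2 ≤ U g g₁ x := by
    intro x
    have h1 := (abs_le.1 (hU x)).1
    have h2 := (abs_le.1 (htw x)).1
    linarith
  have hU3 : ∀ x, U g g₁ x ≤ 3 / 2 := by
    intro x
    have h1 := (abs_le.1 (hU x)).2
    have h2 := (abs_le.1 (htw x)).2
    linarith
  set δ := 4 * (η * |t|) with hδ
  have hδ0 : 0 < δ := by positivity
  have hδ1 : δ ≤ 1 / 2 := by rw [hδ]; linarith
  have hdev : ∀ p : UT g, |nrm g g₁ p - U g g₁ p.pt| ≤ δ * U g g₁ p.pt := by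
    intro p
    have h1 := h p
    have h2 := hU p.pt
    have h3 : nrm g g₁ p - U g g₁ p.pt = (nrm g g₁ p - 1 - t * w p.pt) -
      (U g g₁ p.pt - 1 - t * w p.pt) := by ring
    rw [h3]
    refine (abs_sub _ _).trans ?_
    have h4 : δ * (1 / 2) ≤ δ * U g g₁ p.pt := mul_le_mul_of_nonneg_left (hU2 _) hδ0.le
    rw [hδ] at h4 ⊢
    linarith
  have hcU := continuous_U hn1 g g₁
  have h1 := prod_le hn hδ0 (by linarith) hdev hμ hμ₁ hm hm₁
  have h2 := chebyshev_var μ hcU hU2 (k := n - 1) (by omega) hV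
  have h3 := var_ge μ hcU hw hV hη.le hU
  have hk : n - 1 + 1 = n := by omega
  have hk2 : n - 1 - 1 = n - 2 := by omega
  rw [hk, hk2] at h2
  set P := (∫ x, U g g₁ x ∂μ) * ∫ x, U g g₁ x ^ (n - 1) ∂μ with hP
  set R := V * ∫ x, U g g₁ x ^ n ∂μ with hR
  have hP0 : 0 ≤ P := mul_nonneg (integral_nonneg fun x => (U_pos hn1 g g₁ x).le)
    (integral_nonneg fun x => pow_nonneg (U_pos hn1 g g₁ x).le _)
  have hn2 : ∫ x, U g g₁ x ^ n ∂μ ≤ V * b := by
    have h4 : ∫ x, U g g₁ x ^ n ∂μ ≤ ∫ _ : M, b ∂μ :=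
      integral_mono (hint (hcU.pow n)) (integrable_const _)
        fun x => pow_le_pow_left₀ (by linarith [hU2 x]) (hU3 x) n
    rwa [integral_const, smul_eq_mul] at h4
  have hRb : R ≤ V * (V * b) := mul_le_mul_of_nonneg_left hn2 hV.le
  -- the gap
  have h5 : P + t ^ 2 * (V * (a * Q / 4)) ≤ R := by
    have h6 : t ^ 2 * (Q / 4) ≤ ∫ x, (U g g₁ x - (∫ y, U g g₁ y ∂μ) / V) ^ 2 ∂μ := by
      refine le_trans (mul_le_mul_of_nonneg_left ?_ (sq_nonneg t)) h3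
      linarith
    have h7 : V * (a * (t ^ 2 * (Q / 4))) ≤
        V * (a * ∫ x, (U g g₁ x - (∫ y, U g g₁ y ∂μ) / V) ^ 2 ∂μ) :=
      mul_le_mul_of_nonneg_left (mul_le_mul_of_nonneg_left h6 ha0.le) hV.le
    calc P + t ^ 2 * (V * (a * Q / 4)) = P + V * (a * (t ^ 2 * (Q / 4))) := by ring
      _ ≤ P + V * (a * ∫ x, (U g g₁ x - (∫ y, U g g₁ y ∂μ) / V) ^ 2 ∂μ) := by linarith
      _ ≤ R := h2
  have ht2 : 0 < t ^ 2 := by positivity
  have hR0 : 0 < R := by
    have : 0 < t ^ 2 * (V * (a * Q / 4)) := by positivity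
    linarith
  have hδ2 : δ ^ 2 = 16 * η ^ 2 * t ^ 2 := by
    rw [hδ]
    calc (4 * (η * |t|)) ^ 2 = 16 * η ^ 2 * |t| ^ 2 := by ring
      _ = _ := by rw [sq_abs]
  have h8 := hck δ hδ0 hδ1
  have h9 : ck n δ * ck (n + 1) δ * P ≤ R - t ^ 2 * (V * (a * Q / 8)) := by
    have h10 : P ≤ V * (V * b) := by
      have : 0 ≤ t ^ 2 * (V * (a * Q / 4)) := by positivity
      linarith
    calc ck n δ * ck (n + 1) δ * P ≤ (1 + C * δ ^ 2) * P := mul_le_mul_of_nonneg_right h8 hP0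
      _ = P + C * δ ^ 2 * P := by ring
      _ ≤ P + C * δ ^ 2 * (V * (V * b)) := by
          have : C * δ ^ 2 * P ≤ C * δ ^ 2 * (V * (V * b)) :=
            mul_le_mul_of_nonneg_left h10 (by positivity)
          linarith
      _ = P + t ^ 2 * V * (16 * C * η ^ 2 * (V * b)) := by rw [hδ2]; ring
      _ ≤ P + t ^ 2 * V * (a * Q / 8) := by
          have := mul_le_mul_of_nonneg_left hη3 (by positivity : 0 ≤ t ^ 2 * V)
          linarith
      _ ≤ _ := by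
          have e1 : t ^ 2 * (V * (a * Q / 4)) = t ^ 2 * V * (a * Q / 8) +
            t ^ 2 * (V * (a * Q / 8)) := by ring
          linarith
  refine h1.trans ?_
  rw [mul_div_assoc', div_le_iff₀ hR0]
  have h11 : κ * t ^ 2 * R ≤ t ^ 2 * (V * (a * Q / 8)) := by
    calc κ * t ^ 2 * R ≤ κ * t ^ 2 * (V * (V * b)) :=
          mul_le_mul_of_nonneg_left hRb (by positivity)
      _ = _ := by
          rw [hκ]
          field_simp
  calc ck n δ * ck (n + 1) δ * P ≤ R - t ^ 2 * (V * (a * Q / 8)) := h9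
    _ ≤ R - κ * t ^ 2 * R := by linarith
    _ = _ := by ring

end Vale.Agent.P207.R2.H797
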