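import Vale.Agent.P207.R2.H797.Ltwo

/-!
# P207: the criterion in the mean square, the integrated form
-/

open scoped Manifold ContDiff ENNReal Topology
open Bundle MeasureTheory Set Filter

noncomputable section

namespace Vale.Agent.P207.R2.H797

open Vale.Agent.P207
open Vale.Agent.P255 (RMetric coefIn coefL)

variable {n : ℕ} {M : Type} [TopologicalSpace M] [ChartedSpace (EV n) M]
  [IsManifold 𝓘(ℝ, EV n) ∞ M] [CompactSpace M] [T2Space M] [MeasurableSpace M] [BorelSpace M]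

/-- the numerical part -/
theorem const_le {H : ℝ} (hH : 1 ≤ H) (n : ℕ) :
    ((n : ℝ) * (n + 1) * H ^ (n + 2) + ((n + 1 : ℕ) : ℝ) * ((n + 1 : ℕ) + 1) * H ^ (n + 1 + 2)) *
      H ^ n ≤ 2 * (n + 1) ^ 2 * H ^ (2 * n + 3) := by
  have hn : (0 : ℝ) ≤ n := Nat.cast_nonneg n
  have h0 : 0 < H := by linarith
  have h1 : H ^ (n + 2) ≤ H ^ (n + 3) := pow_le_pow_right₀ hH (by omega)
  push_cast
  calc ((n : ℝ) * (n + 1) * H ^ (n + 2) + (n + 1) * (n + 1 + 1) * H ^ (n + 1 + 2)) * H ^ n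
      ≤ ((n : ℝ) * (n + 1) * H ^ (n + 3) + (n + 1) * (n + 1 + 1) * H ^ (n + 3)) * H ^ n := by
        refine mul_le_mul_of_nonneg_right ?_ (by positivity)
        have := mul_le_mul_of_nonneg_left h1 (by positivity : (0 : ℝ) ≤ n * (n + 1))
        have e : n + 1 + 2 = n + 3 := by omega
        rw [e]
        linarith
    _ = 2 * (n + 1) ^ 2 * H ^ (2 * n + 3) := by ring

/-- **The criterion.** -/
theorem prod_lt_one (hn : 2 ≤ n) {g g₁ : RMetric (EV n) M} {H : ℝ} (hH : 1 ≤ H)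
    (hr : ∀ p q : UT g, nrm g g₁ p ≤ H * nrm g g₁ q) {μ μ₁ : Measure M}
    {m : Measure (UT g)} {m₁ : Measure (UT g₁)} (hμ : IsRiemVol g μ) (hμ₁ : IsRiemVol g₁ μ₁)
    (hm : IsLiouville g μ m) (hm₁ : IsLiouville g₁ μ₁ m₁)
    (hK : 2 * (n + 1) ^ 2 * H ^ (2 * n + 3) * (∫ p, (nrm g g₁ p - U g g₁ p.pt) ^ 2 ∂m) <
      ∫ p, (U g g₁ p.pt - ∫ q, nrm g g₁ q ∂m) ^ 2 ∂m) :
    (∫ p, nrm g g₁ p ∂m) * (∫ p, nrm g₁ g p ∂m₁) < 1 := by
  have hn1 : 1 ≤ n := by omega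
  have hfin := hμ.isFiniteMeasure
  have hop := hμ.isOpenPosMeasure
  have hV := hm.vol_pos
  have hcU := continuous_U hn1 g g₁
  have hcf := continuous_fv hn1 g g₁
  have hint : ∀ {f : M → ℝ}, Continuous f → Integrable f μ := fun hf =>
    hf.integrable_of_hasCompactSupport (HasCompactSupport.of_compactSpace _)
  obtain ⟨e1, e2⟩ := mean_formula hn1 g g₁ hμ hμ₁ hm hm₁
  have hSp := S_pos hn1 g g₁
  have hUp := U_pos hn1 g g₁
  have hcS := continuous_S hn1 g g₁ n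
  have hcS1 := continuous_S hn1 g g₁ (n + 1)
  have hne : Nonempty M := by
    by_contra hcon
    rw [not_nonempty_iff] at hcon
    rw [Measure.real, Set.univ_eq_empty_iff.2 hcon, measure_empty] at hV
    simp at hV
  have := compactSpace_UT g
  -- the smallest stretch
  obtain ⟨p₀⟩ : Nonempty (UT g) := by
    have := hm.1
    exact nonempty_of_isProbabilityMeasure m
  obtain ⟨q₀, -, hq₀⟩ := isCompact_univ.exists_isMinOn (s := (univ : Set (UT g))) ⟨p₀, mem_univ _⟩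
    (continuous_nrm g g₁).continuousOn
  set a := nrm g g₁ q₀ with ha
  have ha0 : 0 < a := nrm_pos g g₁ q₀
  have hlo : ∀ p : UT g, a ≤ nrm g g₁ p := fun p => hq₀ (mem_univ p)
  have hhi : ∀ p : UT g, nrm g g₁ p ≤ H * a := fun p => hr p q₀
  have hH0 : 0 < H := by linarith
  have hUlo : ∀ x, a ≤ U g g₁ x := by
    intro x
    have h1 := sphAvg_mono g (a := fun _ => a) continuous_const (continuous_nrm g g₁) x
      fun p _ => hlo p
    rw [sphAvg_const hn1] at h1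
    exact h1
  have hUhi : ∀ x, U g g₁ x ≤ H * a := by
    intro x
    have h1 := sphAvg_mono g (b := fun _ => H * a) (continuous_nrm g g₁) continuous_const x
      fun p _ => hhi p
    rw [sphAvg_const hn1] at h1
    exact h1
  have hfv0 : ∀ x, 0 ≤ fv g g₁ x := fun x => sphAvg_nonneg (fun p => sq_nonneg _) x
  set V := μ.real univ with hVd
  -- the constants
  set c₁ : ℝ := (n : ℝ) * (n + 1) * H ^ (n + 2) with hc₁
  set c₂ : ℝ := ((n + 1 : ℕ) : ℝ) * ((n + 1 : ℕ) + 1) * H ^ (n + 1 + 2) with hc₂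
  have hc₁0 : 0 ≤ c₁ := by positivity
  have hc₂0 : 0 ≤ c₂ := by positivity
  set F := ∫ x, fv g g₁ x ∂μ with hF
  have hF0 : 0 ≤ F := integral_nonneg hfv0
  set A := ∫ x, U g g₁ x ∂μ with hA
  have hA0 : 0 ≤ A := integral_nonneg fun x => (hUp x).le
  set P := ∫ x, U g g₁ x ^ (n - 1) ∂μ with hP
  set R := ∫ x, U g g₁ x ^ n ∂μ with hR
  have hP0 : 0 ≤ P := integral_nonneg fun x => pow_nonneg (hUp x).le _
  -- the numerator
  have hnum : ∫ x, S g g₁ (n + 1) x / S g g₁ n x ^ 2 ∂μ ≤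
      P + c₂ * ((H * a) ^ (n - 1) * (a⁻¹ ^ 2 * F)) := by
    have h1 : P + c₂ * ((H * a) ^ (n - 1) * (a⁻¹ ^ 2 * F)) =
        ∫ x, (U g g₁ x ^ (n - 1) + c₂ * ((H * a) ^ (n - 1) * (a⁻¹ ^ 2 * fv g g₁ x))) ∂μ := by
      have j1 : Integrable (fun x => U g g₁ x ^ (n - 1)) μ := hint (hcU.pow _)
      have j2 : Integrable (fun x => c₂ * ((H * a) ^ (n - 1) * (a⁻¹ ^ 2 * fv g g₁ x))) μ :=
        hint (continuous_const.mul (continuous_const.mul (continuous_const.mul hcf)))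
      rw [integral_add j1 j2, integral_const_mul, integral_const_mul, integral_const_mul]
    rw [h1]
    refine integral_mono (hint (hcS1.div (hcS.pow 2) fun x => pow_ne_zero 2 (hSp x).ne'))
      (hint ((hcU.pow _).add
        (continuous_const.mul (continuous_const.mul (continuous_const.mul hcf))))) fun x => ?_
    have hU := hUp x
    simp only
    have k1 := S_le_second hn1 hH ha0 hlo hUhi (n + 1) x
    have k2 := le_S hn1 g g₁ n x
    rw [div_le_iff₀ (pow_pos (hSp x) 2)]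
    refine k1.trans ?_
    have k3 : ((U g g₁ x)⁻¹ ^ n) ^ 2 ≤ S g g₁ n x ^ 2 := pow_le_pow_left₀ (by positivity) k2 2
    set T := (U g g₁ x)⁻¹ ^ 2 * fv g g₁ x with hT
    have hT0 : 0 ≤ T := mul_nonneg (by positivity) (hfv0 x)
    have hTa : T ≤ a⁻¹ ^ 2 * fv g g₁ x := by
      refine mul_le_mul_of_nonneg_right ?_ (hfv0 x)
      exact pow_le_pow_left₀ (inv_pos.2 hU).le (inv_anti₀ ha0 (hUlo x)) 2
    have k4 : (U g g₁ x)⁻¹ ^ (n + 1) * (1 + c₂ * T) =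
        U g g₁ x ^ (n - 1) * (1 + c₂ * T) * ((U g g₁ x)⁻¹ ^ n) ^ 2 := by
      obtain ⟨j, rfl⟩ : ∃ j, n = j + 1 := ⟨n - 1, by omega⟩
      simp only [Nat.add_sub_cancel]
      have hUi : U g g₁ x ^ j * (U g g₁ x)⁻¹ ^ j = 1 := by
        rw [← mul_pow, mul_inv_cancel₀ hU.ne', one_pow]
      generalize 1 + c₂ * T = Z
      calc (U g g₁ x)⁻¹ ^ (j + 1 + 1) * Z
          = (U g g₁ x)⁻¹ ^ (j + 2) * Z * 1 := by ring
        _ = (U g g₁ x)⁻¹ ^ (j + 2) * Z * (U g g₁ x ^ j * (U g g₁ x)⁻¹ ^ j) := by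
            rw [hUi]
        _ = _ := by ring
    rw [k4]
    have k5 : U g g₁ x ^ (n - 1) * (1 + c₂ * T) ≤
        U g g₁ x ^ (n - 1) + c₂ * ((H * a) ^ (n - 1) * (a⁻¹ ^ 2 * fv g g₁ x)) := by
      have k6 : U g g₁ x ^ (n - 1) * T ≤ (H * a) ^ (n - 1) * (a⁻¹ ^ 2 * fv g g₁ x) :=
        mul_le_mul (pow_le_pow_left₀ hU.le (hUhi x) _) hTa hT0 (by positivity)
      have k7 := mul_le_mul_of_nonneg_left k6 hc₂0
      calc U g g₁ x ^ (n - 1) * (1 + c₂ * T) =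
          U g g₁ x ^ (n - 1) + c₂ * (U g g₁ x ^ (n - 1) * T) := by ring
        _ ≤ _ := by linarith
    refine mul_le_mul k5 k3 (by positivity) ?_
    have := hfv0 x
    positivity
  -- the denominator
  have hden : R - c₁ * ((H * a) ^ n * (a⁻¹ ^ 2 * F)) ≤ ∫ x, (S g g₁ n x)⁻¹ ∂μ := by
    have h1 : R - c₁ * ((H * a) ^ n * (a⁻¹ ^ 2 * F)) =
        ∫ x, (U g g₁ x ^ n - c₁ * ((H * a) ^ n * (a⁻¹ ^ 2 * fv g g₁ x))) ∂μ := by
      have j1 : Integrable (fun x => U g g₁ x ^ n) μ := hint (hcU.pow _)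
      have j2 : Integrable (fun x => c₁ * ((H * a) ^ n * (a⁻¹ ^ 2 * fv g g₁ x))) μ :=
        hint (continuous_const.mul (continuous_const.mul (continuous_const.mul hcf)))
      rw [integral_sub j1 j2, integral_const_mul, integral_const_mul, integral_const_mul]
    rw [h1]
    refine integral_mono (hint ((hcU.pow _).sub
      (continuous_const.mul (continuous_const.mul (continuous_const.mul hcf)))))
      (hint (hcS.inv₀ fun x => (hSp x).ne')) fun x => ?_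
    have hU := hUp x
    simp only
    have k1 := S_le_second hn1 hH ha0 hlo hUhi n x
    set T := (U g g₁ x)⁻¹ ^ 2 * fv g g₁ x with hT
    have hT0 : 0 ≤ T := mul_nonneg (by positivity) (hfv0 x)
    have hTa : T ≤ a⁻¹ ^ 2 * fv g g₁ x := by
      refine mul_le_mul_of_nonneg_right ?_ (hfv0 x)
      exact pow_le_pow_left₀ (inv_pos.2 hU).le (inv_anti₀ ha0 (hUlo x)) 2
    have k2 : U g g₁ x ^ n * (1 - c₁ * T) ≤ (S g g₁ n x)⁻¹ := by
      rw [← one_div, le_div_iff₀ (hSp x)]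
      have hUi : U g g₁ x ^ n * (U g g₁ x)⁻¹ ^ n = 1 := by
        rw [← mul_pow, mul_inv_cancel₀ hU.ne', one_pow]
      rcases le_total (1 - c₁ * T) 0 with h0 | h0
      · have : U g g₁ x ^ n * (1 - c₁ * T) * S g g₁ n x ≤ 0 :=
          mul_nonpos_of_nonpos_of_nonneg
            (mul_nonpos_of_nonneg_of_nonpos (by positivity) h0) (hSp x).le
        linarith
      · calc U g g₁ x ^ n * (1 - c₁ * T) * S g g₁ n x
            ≤ U g g₁ x ^ n * (1 - c₁ * T) * ((U g g₁ x)⁻¹ ^ n * (1 + c₁ * T)) :=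
              mul_le_mul_of_nonneg_left k1 (by positivity)
          _ = (U g g₁ x ^ n * (U g g₁ x)⁻¹ ^ n) * (1 - (c₁ * T) ^ 2) := by ring
          _ = 1 - (c₁ * T) ^ 2 := by rw [hUi, one_mul]
          _ ≤ 1 := by linarith [sq_nonneg (c₁ * T)]
    refine le_trans ?_ k2
    have k6 : U g g₁ x ^ n * T ≤ (H * a) ^ n * (a⁻¹ ^ 2 * fv g g₁ x) :=
      mul_le_mul (pow_le_pow_left₀ hU.le (hUhi x) _) hTa hT0 (by positivity)
    have k7 := mul_le_mul_of_nonneg_left k6 hc₁0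
    calc U g g₁ x ^ n - c₁ * ((H * a) ^ n * (a⁻¹ ^ 2 * fv g g₁ x))
        ≤ U g g₁ x ^ n - c₁ * (U g g₁ x ^ n * T) := by linarith
      _ = _ := by ring
  -- Chebyshev
  obtain ⟨j, hj⟩ : ∃ j, n = j + 2 := ⟨n - 2, by omega⟩
  have hcheb := chebyshev_var' μ hcU ha0 hUlo j hV
  have hj1 : j + 1 = n - 1 := by omega
  have hj2 : j + 2 = n := hj.symm
  rw [hj1, hj2] at hcheb
  set D := ∫ x, (U g g₁ x - (∫ y, U g g₁ y ∂μ) / V) ^ 2 ∂μ with hD
  -- the two norms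
  have hm1 : ∫ p, (nrm g g₁ p - U g g₁ p.pt) ^ 2 ∂m = F / V := hm.2 _ (continuous_dev hn1 g g₁)
  have hmean : ∫ q, nrm g g₁ q ∂m = A / V := e1
  have hm2 : ∫ p, (U g g₁ p.pt - ∫ q, nrm g g₁ q ∂m) ^ 2 ∂m = D / V := by
    rw [hmean]
    refine (hm.2 (fun p : UT g => (U g g₁ p.pt - A / V) ^ 2)
      (((hcU.comp (continuous_pt g)).sub continuous_const).pow 2)).trans ?_
    congr 1
    refine integral_congr_ae (ae_of_all _ fun x => ?_)
    exact H327.sphAvg_base hn1 g (fun x => (U g g₁ x - A / V) ^ 2) x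
  rw [hm1, hm2, ← mul_div_assoc, div_lt_div_iff_of_pos_right hV] at hK
  have hAhi : A ≤ V * (H * a) := by
    have h4 : A ≤ ∫ _ : M, H * a ∂μ := integral_mono (hint hcU) (integrable_const _) hUhi
    rwa [integral_const, smul_eq_mul] at h4
  -- conclusion
  have hkey : A * (P + c₂ * ((H * a) ^ (n - 1) * (a⁻¹ ^ 2 * F))) <
      V * (R - c₁ * ((H * a) ^ n * (a⁻¹ ^ 2 * F))) := by
    have h1 : A * (c₂ * ((H * a) ^ (n - 1) * (a⁻¹ ^ 2 * F))) ≤
        V * (H * a) * (c₂ * ((H * a) ^ (n - 1) * (a⁻¹ ^ 2 * F))) :=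
      mul_le_mul_of_nonneg_right hAhi (by positivity)
    have h2 : V * (H * a) * (c₂ * ((H * a) ^ (n - 1) * (a⁻¹ ^ 2 * F))) =
        V * (a ^ j * (c₂ * H ^ n * F)) := by
      obtain ⟨i, rfl⟩ : ∃ i, n = i + 2 := ⟨j, hj⟩
      have hij : i = j := by omega
      subst hij
      have h3 : i + 2 - 1 = i + 1 := by omega
      rw [h3]
      have h4 : a⁻¹ ^ 2 * a ^ 2 = 1 := by
        rw [← mul_pow, inv_mul_cancel₀ ha0.ne', one_pow]
      calc V * (H * a) * (c₂ * ((H * a) ^ (i + 1) * (a⁻¹ ^ 2 * F))) =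
          V * (a ^ i * (c₂ * H ^ (i + 2) * F)) * (a⁻¹ ^ 2 * a ^ 2) := by ring
        _ = _ := by rw [h4, mul_one]
    have h5 : V * (c₁ * ((H * a) ^ n * (a⁻¹ ^ 2 * F))) = V * (a ^ j * (c₁ * H ^ n * F)) := by
      have h4 : a⁻¹ ^ 2 * a ^ 2 = 1 := by
        rw [← mul_pow, inv_mul_cancel₀ ha0.ne', one_pow]
      have h6 : a ^ n = a ^ j * a ^ 2 := by rw [hj, pow_add]
      rw [mul_pow, h6]
      calc V * (c₁ * (H ^ n * (a ^ j * a ^ 2) * (a⁻¹ ^ 2 * F))) =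
          V * (a ^ j * (c₁ * H ^ n * F)) * (a⁻¹ ^ 2 * a ^ 2) := by ring
        _ = _ := by rw [h4, mul_one]
    have h7 := const_le hH n
    have h8 : (c₁ + c₂) * H ^ n * F ≤ 2 * (n + 1) ^ 2 * H ^ (2 * n + 3) * F :=
      mul_le_mul_of_nonneg_right h7 hF0
    have h9 : V * (a ^ j * ((c₁ + c₂) * H ^ n * F)) < V * (a ^ j * D) :=
      mul_lt_mul_of_pos_left (mul_lt_mul_of_pos_left (h8.trans_lt hK) (by positivity)) hV
    have h10 : V * (a ^ j * ((c₁ + c₂) * H ^ n * F)) =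
        V * (a ^ j * (c₁ * H ^ n * F)) + V * (a ^ j * (c₂ * H ^ n * F)) := by ring
    have h11 : A * P + V * (a ^ j * D) ≤ V * R := hcheb
    calc A * (P + c₂ * ((H * a) ^ (n - 1) * (a⁻¹ ^ 2 * F)))
        = A * P + A * (c₂ * ((H * a) ^ (n - 1) * (a⁻¹ ^ 2 * F))) := by ring
      _ ≤ A * P + V * (a ^ j * (c₂ * H ^ n * F)) := by linarith
      _ < V * R - V * (a ^ j * (c₁ * H ^ n * F)) := by linarith
      _ = V * R - V * (c₁ * ((H * a) ^ n * (a⁻¹ ^ 2 * F))) := by rw [h5]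
      _ = _ := by ring
  have hDpos : 0 < ∫ x, (S g g₁ n x)⁻¹ ∂μ := by
    obtain ⟨x⟩ := hne
    exact (hcS.inv₀ fun x => (hSp x).ne').integral_pos_of_hasCompactSupport_nonneg_nonzero
      (μ := μ) (HasCompactSupport.of_compactSpace _) (fun x => (inv_pos.2 (hSp x)).le) (x := x)
      (inv_pos.2 (hSp x)).ne'
  rw [hmean, e2, div_mul_div_comm, div_lt_one (by positivity)]
  calc A * ∫ x, S g g₁ (n + 1) x / S g g₁ n x ^ 2 ∂μ
      ≤ A * (P + c₂ * ((H * a) ^ (n - 1) * (a⁻¹ ^ 2 * F))) := mul_le_mul_of_nonneg_left hnum hA0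
    _ < V * (R - c₁ * ((H * a) ^ n * (a⁻¹ ^ 2 * F))) := hkey
    _ ≤ _ := mul_le_mul_of_nonneg_left hden hV.le

end Vale.Agent.P207.R2.H797
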