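import Vale.Agent.P207.R2.H327.Defs

/-!
# P207: definitions used by the theorem on cones of metrics around the conformal directions

The metrics, the geodesic flow, the Liouville measure, the entropies, the averages over unit
spheres `sphAvg`, the length `nrm g₀ g₁ p = |p|_{g₁}` of a `g₀`-unit vector `p` and the average
`meanLen e g₀ g₁ = A(g₀,g₁)` are those of `Vale.Agent.P207.FDefs`; `prodLen = A(g₀,g₁) A(g₁,g₀)`.
-/

open scoped Manifold ContDiff ENNReal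
open MeasureTheory Set

noncomputable section

namespace Vale.Agent.P207F.Cones

open Vale.Agent.P255 (RMetric innerAt)
open Vale.Agent.P207F.Near (prodLen)

variable {E : Type} [NormedAddCommGroup E] [NormedSpace ℝ E] [MeasureSpace E] {M : Type}
  [TopologicalSpace M] [ChartedSpace E M] [IsManifold 𝓘(ℝ, E) ∞ M]

/-- `U(x)`: the average of the length `|v|_{g₁}` over the `g₀`-unit vectors `v` at `x`. -/
def stretch (g₀ g₁ : RMetric E M) (x : M) : ℝ := sphAvg g₀ (nrm g₀ g₁) x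

/-- `S_k(x)`: the average of `|v|_{g₁}^(-k)` over the `g₀`-unit vectors `v` at `x`. -/
def invMean (g₀ g₁ : RMetric E M) (k : ℕ) (x : M) : ℝ :=
  sphAvg g₀ (fun p => (nrm g₀ g₁ p)⁻¹ ^ k) x

/-- `c_k(δ) = ((1 - δ)^(-k) + (1 + δ)^(-k)) / 2`. -/
def evenPart (k : ℕ) (δ : ℝ) : ℝ := (((1 - δ)⁻¹) ^ k + ((1 + δ)⁻¹) ^ k) / 2

/-- At every point `x` the `g₁`-lengths of the `g₀`-unit vectors differ from their average by at
most the fraction `δ` of the average. -/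
def Dilated (g₀ g₁ : RMetric E M) (δ : ℝ) : Prop :=
  0 < δ ∧ δ < 1 ∧ ∀ p : UT g₀, |nrm g₀ g₁ p - stretch g₀ g₁ p.pt| ≤ δ * stretch g₀ g₁ p.pt

variable [MeasurableSpace M] {n : ℕ}

/-- `(∫ U) (∫ U^(n-1)) / (Vol ∫ U^n)`, integrals and volume of `g₀`. -/
def ratio (e : Fin n → E) (g₀ g₁ : RMetric E M) : ℝ :=
  (∫ x, stretch g₀ g₁ x ∂vol e g₀) * (∫ x, stretch g₀ g₁ x ^ (n - 1) ∂vol e g₀) /
    ((vol e g₀).real univ * ∫ x, stretch g₀ g₁ x ^ n ∂vol e g₀)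

/-- The volume of `g₁` has the density `1 / S_n` with respect to that of `g₀`;
`A(g₀,g₁) = ∫ U / Vol(g₀)` and `A(g₁,g₀) = (∫ S_(n+1) / S_n^2) / ∫ 1 / S_n`. -/
def Formulas (e : Fin n → E) (g₀ g₁ : RMetric E M) : Prop :=
  (∀ f : M → ℝ, ∫ x, f x ∂vol e g₁ = ∫ x, (invMean g₀ g₁ n x)⁻¹ * f x ∂vol e g₀) ∧
    meanLen e g₀ g₁ = (∫ x, stretch g₀ g₁ x ∂vol e g₀) / (vol e g₀).real univ ∧
    meanLen e g₁ g₀ = (∫ x, invMean g₀ g₁ (n + 1) x / invMean g₀ g₁ n x ^ 2 ∂vol e g₀) /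
      ∫ x, (invMean g₀ g₁ n x)⁻¹ ∂vol e g₀

/-- `A(g₀,g₁) A(g₁,g₀) ≤ c_n(δ) c_(n+1)(δ) ratio`, and `ratio < 1` if `U` is not constant. -/
def Quadratic (e : Fin n → E) (g₀ g₁ : RMetric E M) : Prop :=
  (∀ δ : ℝ, Dilated g₀ g₁ δ →
    prodLen e g₀ g₁ ≤ evenPart n δ * evenPart (n + 1) δ * ratio e g₀ g₁) ∧
  ((∃ x y, stretch g₀ g₁ x ≠ stretch g₀ g₁ y) → ratio e g₀ g₁ < 1)

/-- `h_L(g₁) ≤ q h_top(g₁)`, `h_L(g₁) < h_top(g₁)` and `g₁` is not locally symmetric. -/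
def Strict (e : Fin n → E) (g₁ : RMetric E M) (q : ℝ) : Prop :=
  hLiou e g₁ ≤ ENNReal.ofReal q * hTop g₁ ∧ hLiou e g₁ < hTop g₁ ∧ ¬ LocSymmetric g₁

/-- All negatively curved metrics `g₁` with `| |v|_{g₁} - 1 - t w | ≤ η |t|` on the `g₀`-unit
vectors, for some `0 < |t| ≤ t₀`, satisfy `h_L(g₁) ≤ (1 - κ t²) h_top(g₁)`,
`h_L(g₁) < h_top(g₁)` and are not locally symmetric. -/
def Cone (e : Fin n → E) (g₀ : RMetric E M) (w : M → ℝ) (η t₀ κ : ℝ) : Prop :=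
  0 < η ∧ 0 < t₀ ∧ 0 < κ ∧ κ * t₀ ^ 2 < 1 ∧
    ∀ (g₁ : RMetric E M) (t : ℝ), NegCurvature g₁ → t ≠ 0 → |t| ≤ t₀ →
      (∀ p : UT g₀, |nrm g₀ g₁ p - 1 - t * w p.pt| ≤ η * |t|) → Strict e g₁ (1 - κ * t ^ 2)

end Vale.Agent.P207F.Cones
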