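import Vale.Agent.P207.R2.H797.Defs

/-!
# P207: the criterion in the mean square
-/

open scoped Manifold ContDiff ENNReal
open MeasureTheory Set

noncomputable section

namespace Vale.Agent.P207F.Cones

open Vale.Agent.P255 (RMetric innerAt)

variable {E : Type} [NormedAddCommGroup E] [NormedSpace ℝ E] [MeasureSpace E] {M : Type}
  [TopologicalSpace M] [ChartedSpace E M] [IsManifold 𝓘(ℝ, E) ∞ M] [MeasurableSpace M] {n : ℕ}

/-- `f(v) ≤ H f(v')` for all `g₀`-unit vectors `v, v'`, where `f(v) = |v|_{g₁}`, and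
`2 (n+1)² H^(2n+3) ∫ (f - U)² dm < ∫ (U - A(g₀,g₁))² dm`, where `m` is the Liouville measure of
`g₀`, `U` is the average of `f` over the unit spheres, and `A(g₀,g₁) = ∫ f dm`. -/
def ConformalDominates (e : Fin n → E) (g₀ g₁ : RMetric E M) (H : ℝ) : Prop :=
  1 ≤ H ∧ (∀ p q : UT g₀, nrm g₀ g₁ p ≤ H * nrm g₀ g₁ q) ∧
    2 * (n + 1) ^ 2 * H ^ (2 * n + 3) *
      (∫ p, (nrm g₀ g₁ p - stretch g₀ g₁ p.pt) ^ 2 ∂liou e g₀) <
      ∫ p, (stretch g₀ g₁ p.pt - meanLen e g₀ g₁) ^ 2 ∂liou e g₀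

end Vale.Agent.P207F.Cones
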