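import Vale.Agent.P207.R2.H797.Form

/-!
# P207: the quadratic estimate
-/

open scoped Manifold ContDiff ENNReal Topology
open Bundle MeasureTheory Set Filter

noncomputable section

namespace Vale.Agent.P207.R2.H797

open Vale.Agent.P207
open Vale.Agent.P255 (RMetric coefIn coefL)

/-- the even part of `t ↦ (1 + t) ^ (-k)` at `δ` -/
def ck (k : ℕ) (δ : ℝ) : ℝ := (((1 - δ)⁻¹) ^ k + ((1 + δ)⁻¹) ^ k) / 2

/-- the chord -/
theorem inv_pow_le_chord {δ t : ℝ} (hδ : 0 < δ) (hδ1 : δ < 1) (ht : |t - 1| ≤ δ) (k : ℕ) :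
    t⁻¹ ^ k ≤ ck k δ + (((1 + δ)⁻¹ ^ k - (1 - δ)⁻¹ ^ k) / (2 * δ)) * (t - 1) := by
  have hb := abs_le.1 ht
  have hconv : ConvexOn ℝ (Ioi (0 : ℝ)) fun x : ℝ => x ^ (-(k : ℤ)) := convexOn_zpow _
  have m1 : 1 - δ ∈ Ioi (0 : ℝ) := mem_Ioi.2 (by linarith)
  have m2 : 1 + δ ∈ Ioi (0 : ℝ) := mem_Ioi.2 (by linarith)
  have w1 : 0 ≤ (δ - (t - 1)) / (2 * δ) := div_nonneg (by linarith) (by linarith)
  have w2 : 0 ≤ (δ + (t - 1)) / (2 * δ) := div_nonneg (by linarith) (by linarith)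
  have w3 : (δ - (t - 1)) / (2 * δ) + (δ + (t - 1)) / (2 * δ) = 1 := by
    field_simp
    ring
  have h1 := hconv.2 m1 m2 w1 w2 w3
  simp only [smul_eq_mul, zpow_neg, zpow_natCast] at h1
  have h2 : (δ - (t - 1)) / (2 * δ) * (1 - δ) + (δ + (t - 1)) / (2 * δ) * (1 + δ) = t := by
    field_simp
    ring
  rw [h2] at h1
  unfold ck
  simp only [inv_pow]
  refine h1.trans_eq ?_
  field_simp
  ring

/-- the tangent -/
theorem tangent_le_inv_pow {t : ℝ} (ht : 0 < t) (k : ℕ) : 1 - k * (t - 1) ≤ t⁻¹ ^ k := by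
  have h1 : 1 + (k : ℝ) * (t⁻¹ - 1) ≤ t⁻¹ ^ k := by
    have h2 := one_add_mul_le_pow (a := t⁻¹ - 1) (by
      have := inv_pos.2 ht
      linarith) k
    simpa using h2
  have h3 : 1 - t ≤ t⁻¹ - 1 := by
    have h4 : t⁻¹ - 1 - (1 - t) = (t - 1) ^ 2 / t := by
      field_simp
      ring
    have h5 : 0 ≤ (t - 1) ^ 2 / t := by positivity
    linarith
  have h6 : (k : ℝ) * (1 - t) ≤ k * (t⁻¹ - 1) := mul_le_mul_of_nonneg_left h3 (Nat.cast_nonneg k)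
  linarith

theorem ck_pos {δ : ℝ} (hδ : 0 < δ) (hδ1 : δ < 1) (k : ℕ) : 0 < ck k δ := by
  unfold ck
  have h1 : 0 < (1 - δ)⁻¹ := inv_pos.2 (by linarith)
  have h2 : 0 < (1 + δ)⁻¹ := inv_pos.2 (by linarith)
  positivity

variable {n : ℕ} {M : Type} [TopologicalSpace M] [ChartedSpace (EV n) M]
  [IsManifold 𝓘(ℝ, EV n) ∞ M]

section Cpt

variable [CompactSpace M] [T2Space M]

theorem sphAvg_mono (g : RMetric (EV n) M) {a b : UT g → ℝ} (ha : Continuous a)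
    (hb : Continuous b) (x : M) (h : ∀ p : UT g, p.pt = x → a p ≤ b p) :
    sphAvg g a x ≤ sphAvg g b x := by
  have := compactSpace_UT g
  rw [sphAvg_eq, sphAvg_eq]
  unfold avgB
  obtain ⟨c, hc⟩ := innerB_LB g x
  refine div_le_div_of_nonneg_right ?_ hc.volume_real_pos.le
  refine integral_mono (integrableOn_radial ha x) (integrableOn_radial hb x) fun v => ?_
  simp only
  unfold radial
  split_ifs with hv
  · exact le_rfl
  · exact h _ rfl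

/-- the mean stretch at `x` -/
def U (g g₁ : RMetric (EV n) M) (x : M) : ℝ := sphAvg g (nrm g g₁) x

theorem continuous_U (hn : 1 ≤ n) (g g₁ : RMetric (EV n) M) : Continuous (U g g₁) :=
  continuous_sphAvg hn (continuous_nrm g g₁)

theorem sphAvg_const (hn : 1 ≤ n) (g : RMetric (EV n) M) (c : ℝ) (x : M) :
    sphAvg g (fun _ => c) x = c := H327.sphAvg_base hn g (fun _ => c) x

theorem sphAvg_affine (hn : 1 ≤ n) (g g₁ : RMetric (EV n) M) (a b : ℝ) (x : M) :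
    sphAvg g (fun p => a + b * nrm g g₁ p) x = a + b * U g g₁ x := by
  have h1 : (fun p : UT g => a + b * nrm g g₁ p) = (fun _ => a) + b • nrm g g₁ := rfl
  rw [h1, sphAvg_add continuous_const ((continuous_nrm g g₁).const_smul b) x,
    sphAvg_const hn, sphAvg_smul]
  rfl

theorem U_pos (hn : 1 ≤ n) (g g₁ : RMetric (EV n) M) (x : M) : 0 < U g g₁ x := by
  have := compactSpace_UT g
  have hc : Continuous fun p : UT g => (nrm g g₁ p)⁻¹ :=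
    (continuous_nrm g g₁).inv₀ fun p => (nrm_pos g g₁ p).ne'
  obtain ⟨C, hC0, hC⟩ := exists_abs_le hc
  have h1 : ∀ p : UT g, (C + 1)⁻¹ ≤ nrm g g₁ p := by
    intro p
    have h2 := nrm_pos g g₁ p
    have h3 : (nrm g g₁ p)⁻¹ ≤ C + 1 := by
      have := (le_abs_self _).trans (hC p)
      linarith
    exact inv_le_of_inv_le₀ h2 h3
  have h4 := sphAvg_mono g (a := fun _ => (C + 1)⁻¹) continuous_const (continuous_nrm g g₁) x
    fun p _ => h1 p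
  rw [sphAvg_const hn] at h4
  exact (inv_pos.2 (by linarith)).trans_le h4

variable {g g₁ : RMetric (EV n) M} {δ : ℝ}

theorem S_le (hn : 1 ≤ n) (hδ : 0 < δ) (hδ1 : δ < 1)
    (h : ∀ p : UT g, |nrm g g₁ p - U g g₁ p.pt| ≤ δ * U g g₁ p.pt) (k : ℕ) (x : M) :
    S g g₁ k x ≤ (U g g₁ x)⁻¹ ^ k * ck k δ := by
  have hU := U_pos hn g g₁ x
  set s := ((1 + δ)⁻¹ ^ k - (1 - δ)⁻¹ ^ k) / (2 * δ) with hs
  have h1 : S g g₁ k x ≤ sphAvg g (fun p => (U g g₁ x)⁻¹ ^ k * (ck k δ - s) +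
      ((U g g₁ x)⁻¹ ^ k * s * (U g g₁ x)⁻¹) * nrm g g₁ p) x := by
    refine sphAvg_mono g (continuous_inv_pow g g₁ k)
      (continuous_const.add (continuous_const.mul (continuous_nrm g g₁))) x fun p hp => ?_
    have h2 := h p
    rw [hp] at h2
    have h3 : |nrm g g₁ p / U g g₁ x - 1| ≤ δ := by
      have h4 : nrm g g₁ p / U g g₁ x - 1 = (nrm g g₁ p - U g g₁ x) / U g g₁ x := by
        field_simp
      rw [h4, abs_div, abs_of_pos hU, div_le_iff₀ hU]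
      exact h2
    have h5 := inv_pow_le_chord hδ hδ1 h3 k
    have h6 : (nrm g g₁ p)⁻¹ ^ k = (U g g₁ x)⁻¹ ^ k * (nrm g g₁ p / U g g₁ x)⁻¹ ^ k := by
      rw [← mul_pow, inv_div, ← div_eq_inv_mul, div_right_comm, div_self hU.ne', one_div]
    rw [h6]
    have h7 : 0 ≤ (U g g₁ x)⁻¹ ^ k := by positivity
    change _ ≤ (U g g₁ x)⁻¹ ^ k * (ck k δ - s) +
      ((U g g₁ x)⁻¹ ^ k * s * (U g g₁ x)⁻¹) * nrm g g₁ p
    calc (U g g₁ x)⁻¹ ^ k * (nrm g g₁ p / U g g₁ x)⁻¹ ^ k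
        ≤ (U g g₁ x)⁻¹ ^ k * (ck k δ + s * (nrm g g₁ p / U g g₁ x - 1)) :=
          mul_le_mul_of_nonneg_left h5 h7
      _ = _ := by ring
  rw [sphAvg_affine hn] at h1
  refine h1.trans_eq ?_
  have h8 : (U g g₁ x)⁻¹ * U g g₁ x = 1 := inv_mul_cancel₀ hU.ne'
  calc (U g g₁ x)⁻¹ ^ k * (ck k δ - s) + (U g g₁ x)⁻¹ ^ k * s * (U g g₁ x)⁻¹ * U g g₁ x
      = (U g g₁ x)⁻¹ ^ k * (ck k δ - s) +
        (U g g₁ x)⁻¹ ^ k * s * ((U g g₁ x)⁻¹ * U g g₁ x) := by ring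
    _ = _ := by rw [h8]; ring

theorem le_S (hn : 1 ≤ n) (g g₁ : RMetric (EV n) M) (k : ℕ) (x : M) :
    (U g g₁ x)⁻¹ ^ k ≤ S g g₁ k x := by
  have hU := U_pos hn g g₁ x
  have h1 : sphAvg g (fun p => (U g g₁ x)⁻¹ ^ k * (1 + k) +
      (-((U g g₁ x)⁻¹ ^ k * k * (U g g₁ x)⁻¹)) * nrm g g₁ p) x ≤ S g g₁ k x := by
    refine sphAvg_mono g (continuous_const.add (continuous_const.mul (continuous_nrm g g₁)))
      (continuous_inv_pow g g₁ k) x fun p hp => ?_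
    have hp0 := nrm_pos g g₁ p
    have h5 := tangent_le_inv_pow (t := nrm g g₁ p / U g g₁ x) (by positivity) k
    have h6 : (nrm g g₁ p)⁻¹ ^ k = (U g g₁ x)⁻¹ ^ k * (nrm g g₁ p / U g g₁ x)⁻¹ ^ k := by
      rw [← mul_pow, inv_div, ← div_eq_inv_mul, div_right_comm, div_self hU.ne', one_div]
    rw [h6]
    have h7 : 0 ≤ (U g g₁ x)⁻¹ ^ k := by positivity
    change (U g g₁ x)⁻¹ ^ k * (1 + k) +
      (-((U g g₁ x)⁻¹ ^ k * k * (U g g₁ x)⁻¹)) * nrm g g₁ p ≤ _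
    refine le_trans (le_of_eq ?_) (mul_le_mul_of_nonneg_left h5 h7)
    ring
  rw [sphAvg_affine hn] at h1
  refine le_trans (le_of_eq ?_) h1
  have h8 : (U g g₁ x)⁻¹ * U g g₁ x = 1 := inv_mul_cancel₀ hU.ne'
  calc (U g g₁ x)⁻¹ ^ k = (U g g₁ x)⁻¹ ^ k * (1 + k) - (U g g₁ x)⁻¹ ^ k * k * 1 := by ring
    _ = (U g g₁ x)⁻¹ ^ k * (1 + k) -
        (U g g₁ x)⁻¹ ^ k * k * ((U g g₁ x)⁻¹ * U g g₁ x) := by rw [h8]
    _ = _ := by ring

variable [MeasurableSpace M] [BorelSpace M]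

/-- **The quadratic estimate.** -/
theorem prod_le (hn : 2 ≤ n) (hδ : 0 < δ) (hδ1 : δ < 1)
    (h : ∀ p : UT g, |nrm g g₁ p - U g g₁ p.pt| ≤ δ * U g g₁ p.pt) {μ μ₁ : Measure M}
    {m : Measure (UT g)} {m₁ : Measure (UT g₁)} (hμ : IsRiemVol g μ) (hμ₁ : IsRiemVol g₁ μ₁)
    (hm : IsLiouville g μ m) (hm₁ : IsLiouville g₁ μ₁ m₁) :
    (∫ p, nrm g g₁ p ∂m) * (∫ p, nrm g₁ g p ∂m₁) ≤ ck n δ * ck (n + 1) δ *
      ((∫ x, U g g₁ x ∂μ) * (∫ x, U g g₁ x ^ (n - 1) ∂μ) /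
        (μ.real univ * ∫ x, U g g₁ x ^ n ∂μ)) := by
  have hn1 : 1 ≤ n := by omega
  have hfin := hμ.isFiniteMeasure
  have hop := hμ.isOpenPosMeasure
  have hV := hm.vol_pos
  have hcU := continuous_U hn1 g g₁
  have hint : ∀ {f : M → ℝ}, Continuous f → Integrable f μ := fun hf =>
    hf.integrable_of_hasCompactSupport (HasCompactSupport.of_compactSpace _)
  obtain ⟨h1, h2⟩ := mean_formula hn1 g g₁ hμ hμ₁ hm hm₁
  have hSp := S_pos hn1 g g₁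
  have hcS := continuous_S hn1 g g₁ n
  have hcS1 := continuous_S hn1 g g₁ (n + 1)
  have ha := ck_pos hδ hδ1 n
  have hb := ck_pos hδ hδ1 (n + 1)
  have hne : Nonempty M := by
    by_contra hcon
    rw [not_nonempty_iff] at hcon
    rw [Measure.real, Set.univ_eq_empty_iff.2 hcon, measure_empty] at hV
    simp at hV
  have hIn : 0 < ∫ x, U g g₁ x ^ n ∂μ := by
    obtain ⟨x⟩ := hne
    exact (hcU.pow n).integral_pos_of_hasCompactSupport_nonneg_nonzero (μ := μ)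
      (HasCompactSupport.of_compactSpace _) (fun x => pow_nonneg (U_pos hn1 g g₁ x).le n) (x := x)
      (pow_ne_zero _ (U_pos hn1 g g₁ x).ne')
  have hnum : ∫ x, S g g₁ (n + 1) x / S g g₁ n x ^ 2 ∂μ ≤
      ck (n + 1) δ * ∫ x, U g g₁ x ^ (n - 1) ∂μ := by
    rw [← integral_const_mul]
    refine integral_mono (hint (hcS1.div (hcS.pow 2) fun x => pow_ne_zero 2 (hSp x).ne'))
      (hint (continuous_const.mul (hcU.pow _))) fun x => ?_
    have hU := U_pos hn1 g g₁ x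
    simp only
    have k1 := S_le hn1 hδ hδ1 h (n + 1) x
    have k2 := le_S hn1 g g₁ n x
    rw [div_le_iff₀ (pow_pos (hSp x) 2)]
    refine k1.trans ?_
    have k3 : ((U g g₁ x)⁻¹ ^ n) ^ 2 ≤ S g g₁ n x ^ 2 := pow_le_pow_left₀ (by positivity) k2 2
    have k4 : (U g g₁ x)⁻¹ ^ (n + 1) * ck (n + 1) δ =
        ck (n + 1) δ * U g g₁ x ^ (n - 1) * ((U g g₁ x)⁻¹ ^ n) ^ 2 := by
      obtain ⟨j, rfl⟩ : ∃ j, n = j + 1 := ⟨n - 1, by omega⟩
      simp only [Nat.add_sub_cancel]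
      have hUi : U g g₁ x ^ j * (U g g₁ x)⁻¹ ^ j = 1 := by
        rw [← mul_pow, mul_inv_cancel₀ hU.ne', one_pow]
      calc (U g g₁ x)⁻¹ ^ (j + 1 + 1) * ck (j + 1 + 1) δ
          = (U g g₁ x)⁻¹ ^ (j + 2) * ck (j + 1 + 1) δ * 1 := by ring
        _ = (U g g₁ x)⁻¹ ^ (j + 2) * ck (j + 1 + 1) δ * (U g g₁ x ^ j * (U g g₁ x)⁻¹ ^ j) := by
            rw [hUi]
        _ = _ := by ring
    rw [k4]
    exact mul_le_mul_of_nonneg_left k3 (by positivity)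
  have hden : (∫ x, U g g₁ x ^ n ∂μ) / ck n δ ≤ ∫ x, (S g g₁ n x)⁻¹ ∂μ := by
    rw [← integral_div]
    refine integral_mono (hint ((hcU.pow n).div_const _))
      (hint (hcS.inv₀ fun x => (hSp x).ne')) fun x => ?_
    have hU := U_pos hn1 g g₁ x
    simp only
    have k1 := S_le hn1 hδ hδ1 h n x
    rw [div_le_iff₀ ha, ← div_eq_inv_mul, le_div_iff₀ (hSp x)]
    calc U g g₁ x ^ n * S g g₁ n x ≤ U g g₁ x ^ n * ((U g g₁ x)⁻¹ ^ n * ck n δ) :=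
          mul_le_mul_of_nonneg_left k1 (by positivity)
      _ = ck n δ := by
          rw [← mul_assoc, ← mul_pow, mul_inv_cancel₀ hU.ne', one_pow, one_mul]
  have hI1 : 0 ≤ ∫ x, U g g₁ x ^ (n - 1) ∂μ :=
    integral_nonneg fun x => pow_nonneg (U_pos hn1 g g₁ x).le _
  have hI0 : 0 ≤ ∫ x, U g g₁ x ∂μ := integral_nonneg fun x => (U_pos hn1 g g₁ x).le
  have h3 : ∫ p, nrm g₁ g p ∂m₁ ≤ ck n δ * ck (n + 1) δ *
      ((∫ x, U g g₁ x ^ (n - 1) ∂μ) / ∫ x, U g g₁ x ^ n ∂μ) := by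
    rw [h2]
    calc (∫ x, S g g₁ (n + 1) x / S g g₁ n x ^ 2 ∂μ) / ∫ x, (S g g₁ n x)⁻¹ ∂μ
        ≤ (ck (n + 1) δ * ∫ x, U g g₁ x ^ (n - 1) ∂μ) / ∫ x, (S g g₁ n x)⁻¹ ∂μ :=
          div_le_div_of_nonneg_right hnum (integral_nonneg fun x => (inv_pos.2 (hSp x)).le)
      _ ≤ (ck (n + 1) δ * ∫ x, U g g₁ x ^ (n - 1) ∂μ) / ((∫ x, U g g₁ x ^ n ∂μ) / ck n δ) :=
          div_le_div_of_nonneg_left (mul_nonneg hb.le hI1) (div_pos hIn ha) hden
      _ = _ := by field_simp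
  have h4 : ∫ p, nrm g g₁ p ∂m = (∫ x, U g g₁ x ∂μ) / μ.real univ := h1
  rw [h4]
  calc (∫ x, U g g₁ x ∂μ) / μ.real univ * ∫ p, nrm g₁ g p ∂m₁
      ≤ (∫ x, U g g₁ x ∂μ) / μ.real univ * (ck n δ * ck (n + 1) δ *
        ((∫ x, U g g₁ x ^ (n - 1) ∂μ) / ∫ x, U g g₁ x ^ n ∂μ)) :=
        mul_le_mul_of_nonneg_left h3 (div_nonneg hI0 hV.le)
    _ = _ := by field_simp

theorem ratio_lt (hn : 2 ≤ n) (hne : ∃ x y, U g g₁ x ≠ U g g₁ y) {μ : Measure M}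
    {m : Measure (UT g)} (hμ : IsRiemVol g μ) (hm : IsLiouville g μ m) :
    (∫ x, U g g₁ x ∂μ) * (∫ x, U g g₁ x ^ (n - 1) ∂μ) /
      (μ.real univ * ∫ x, U g g₁ x ^ n ∂μ) < 1 := by
  have hn1 : 1 ≤ n := by omega
  have hfin := hμ.isFiniteMeasure
  have hop := hμ.isOpenPosMeasure
  have hV := hm.vol_pos
  have hcU := continuous_U hn1 g g₁
  have hc := H327.chebyshev μ hcU (U_pos hn1 g g₁) hne (k := n - 1) (by omega)
  have hk : n - 1 + 1 = n := by omega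
  rw [hk] at hc
  obtain ⟨x, -, -⟩ := hne
  have hIn : 0 < ∫ x, U g g₁ x ^ n ∂μ :=
    (hcU.pow n).integral_pos_of_hasCompactSupport_nonneg_nonzero (μ := μ)
      (HasCompactSupport.of_compactSpace _) (fun x => pow_nonneg (U_pos hn1 g g₁ x).le n) (x := x)
      (pow_ne_zero _ (U_pos hn1 g g₁ x).ne')
  rw [div_lt_one (by positivity)]
  exact hc

end Cpt

end Vale.Agent.P207.R2.H797
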