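import Vale.Agent.P207.R2.H797.Polar
import Vale.Agent.P207.R2.H327.Comp
import Vale.Agent.P207.R2.H327.Conf

/-!
# P207: exact formulas for the volume and the Liouville averages of two arbitrary metrics
-/

open scoped Manifold ContDiff ENNReal Topology
open Bundle MeasureTheory Set Filter

noncomputable section

namespace Vale.Agent.P207.R2.H797

open Vale.Agent.P207
open Vale.Agent.P255 (RMetric coefIn coefL)

section Forms

variable {n : ℕ}

/-- the quotient of the two norms -/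
def qt (B B₁ : EV n →L[ℝ] EV n →L[ℝ] ℝ) (v : EV n) : ℝ :=
  Real.sqrt (B₁ v v) / Real.sqrt (B v v)

theorem qt_nonneg (B B₁ : EV n →L[ℝ] EV n →L[ℝ] ℝ) (v : EV n) : 0 ≤ qt B B₁ v := by
  unfold qt; positivity

theorem measurable_qt (B B₁ : EV n →L[ℝ] EV n →L[ℝ] ℝ) : Measurable (qt B B₁) :=
  (continuous_quad B₁).measurable.sqrt.div (continuous_quad B).measurable.sqrt

theorem qt_inv (B B₁ : EV n →L[ℝ] EV n →L[ℝ] ℝ) (v : EV n) : (qt B B₁ v)⁻¹ = qt B₁ B v := by
  unfold qt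
  rw [inv_div]

theorem qt_smul (B B₁ : EV n →L[ℝ] EV n →L[ℝ] ℝ) {r : ℝ} (hr : 0 < r) (v : EV n) :
    qt B B₁ (r • v) = qt B B₁ v := by
  have hsq : ∀ A : EV n →L[ℝ] EV n →L[ℝ] ℝ,
      Real.sqrt (A (r • v) (r • v)) = r * Real.sqrt (A v v) := by
    intro A
    have h2 : A (r • v) (r • v) = r ^ 2 * A v v := by
      simp only [map_smul, smul_apply, smul_eq_mul]
      ring
    rw [h2, Real.sqrt_mul (sq_nonneg _), Real.sqrt_sq hr.le]
  unfold qt
  rw [hsq, hsq, mul_div_mul_left _ _ hr.ne']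

/-- **Change of the ball**, real form. -/
theorem integral_change (hn : 1 ≤ n) {B B₁ : EV n →L[ℝ] EV n →L[ℝ] ℝ}
    (hB : ∀ v, v ≠ 0 → 0 < B v v) (hB₁ : ∀ v, v ≠ 0 → 0 < B₁ v v) {F : EV n → ℝ}
    (hF : Measurable F) (hF0 : ∀ v, 0 ≤ F v)
    (hh : ∀ (r : ℝ) (v : EV n), 0 < r → F (r • v) = F v) :
    ∫ v in ballB B₁, F v = ∫ v in ballB B, F v * (qt B B₁ v)⁻¹ ^ n := by
  have h1 := lintegral_change hn hB hB₁ (F := fun v => ENNReal.ofReal (F v)) hF.ennreal_ofReal
    (fun r v hr => by rw [hh r v hr])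
  rw [integral_eq_lintegral_of_nonneg_ae (ae_of_all _ hF0) hF.aestronglyMeasurable,
    integral_eq_lintegral_of_nonneg_ae (ae_of_all _ fun v => mul_nonneg (hF0 v)
      (pow_nonneg (inv_nonneg.2 (qt_nonneg B B₁ v)) n))
      (hF.mul ((measurable_qt B B₁).inv.pow_const n)).aestronglyMeasurable, h1]
  congr 1
  refine lintegral_congr fun v => ?_
  rw [ENNReal.ofReal_mul (hF0 v)]
  rfl

theorem volume_change (hn : 1 ≤ n) {B B₁ : EV n →L[ℝ] EV n →L[ℝ] ℝ}
    (hB : ∀ v, v ≠ 0 → 0 < B v v) (hB₁ : ∀ v, v ≠ 0 → 0 < B₁ v v) :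
    volume.real (ballB B₁) = ∫ v in ballB B, (qt B B₁ v)⁻¹ ^ n := by
  have h1 := integral_change hn hB hB₁ (F := fun _ => (1 : ℝ)) measurable_const
    (fun _ => zero_le_one) (fun _ _ _ => rfl)
  simp only [integral_const, smul_eq_mul, mul_one, measureReal_restrict_apply MeasurableSet.univ,
    univ_inter, one_mul] at h1
  exact h1

end Forms

variable {n : ℕ} {M : Type} [TopologicalSpace M] [ChartedSpace (EV n) M]
  [IsManifold 𝓘(ℝ, EV n) ∞ M]

theorem nrm_pos (g g₁ : RMetric (EV n) M) (p : UT g) : 0 < nrm g g₁ p := by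
  refine Real.sqrt_pos.2 (g₁.pos p.pt p.vec fun h => ?_)
  have h1 : g.inner p.pt p.vec p.vec = 1 := p.2
  rw [h] at h1
  simp at h1

/-- the average of the power `-k` of the stretch -/
def S (g g₁ : RMetric (EV n) M) (k : ℕ) (x : M) : ℝ :=
  sphAvg g (fun p => (nrm g g₁ p)⁻¹ ^ k) x

theorem radial_inv_pow (g g₁ : RMetric (EV n) M) {k : ℕ} (hk : 1 ≤ k) (x : M) (v : EV n) :
    radial g (fun p => (nrm g g₁ p)⁻¹ ^ k) x v = (qt (innerB g x) (innerB g₁ x) v)⁻¹ ^ k := by
  have h1 := H327.radial_nrm g g₁ x v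
  have h2 : qt (innerB g x) (innerB g₁ x) v = radial g (nrm g g₁) x v := by
    rw [h1]
    rfl
  rw [h2]
  unfold radial
  split_ifs with h
  · rw [inv_zero, zero_pow (by omega)]
  · rfl

theorem innerB_pos (g : RMetric (EV n) M) (x : M) (v : EV n) (hv : v ≠ 0) :
    0 < innerB g x v v := g.pos x v hv

section Cpt

variable [CompactSpace M] [T2Space M]

theorem continuous_inv_pow (g g₁ : RMetric (EV n) M) (k : ℕ) :
    Continuous fun p : UT g => (nrm g g₁ p)⁻¹ ^ k :=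
  ((continuous_nrm g g₁).inv₀ fun p => (nrm_pos g g₁ p).ne').pow k

theorem continuous_S (hn : 1 ≤ n) (g g₁ : RMetric (EV n) M) (k : ℕ) : Continuous (S g g₁ k) :=
  continuous_sphAvg hn (continuous_inv_pow g g₁ k)

/-- the volume of the unit balls -/
theorem volume_ball_eq (hn : 1 ≤ n) (g g₁ : RMetric (EV n) M) (x : M) :
    volume.real (ballB (innerB g₁ x)) = volume.real (ballB (innerB g x)) * S g g₁ n x := by
  obtain ⟨c, hc⟩ := innerB_LB g x
  rw [volume_change hn (innerB_pos g x) (innerB_pos g₁ x)]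
  unfold S
  rw [sphAvg_eq]
  unfold avgB
  rw [mul_div_cancel₀ _ hc.volume_real_pos.ne']
  congr 1
  funext v
  exact (radial_inv_pow g g₁ hn x v).symm

theorem S_pos (hn : 1 ≤ n) (g g₁ : RMetric (EV n) M) (x : M) : 0 < S g g₁ n x := by
  obtain ⟨c, hc⟩ := innerB_LB g x
  obtain ⟨c₁, hc₁⟩ := innerB_LB g₁ x
  have h1 := volume_ball_eq hn g g₁ x
  have h2 := hc₁.volume_real_pos
  rw [h1] at h2
  exact (pos_iff_pos_of_mul_pos h2).1 hc.volume_real_pos

/-- the average of the reciprocal stretch over the second sphere bundle -/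
theorem sphAvg_second (hn : 1 ≤ n) (g g₁ : RMetric (EV n) M) (x : M) :
    sphAvg g₁ (nrm g₁ g) x = S g g₁ (n + 1) x / S g g₁ n x := by
  obtain ⟨c, hc⟩ := innerB_LB g x
  have hV := hc.volume_real_pos
  have hS := S_pos hn g g₁ x
  rw [sphAvg_eq]
  unfold avgB
  rw [volume_ball_eq hn g g₁ x]
  have h1 : ∀ v : EV n, radial g₁ (nrm g₁ g) x v = qt (innerB g₁ x) (innerB g x) v :=
    fun v => H327.radial_nrm g₁ g x v
  simp only [h1]
  rw [integral_change hn (innerB_pos g x) (innerB_pos g₁ x) (measurable_qt _ _)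
    (qt_nonneg _ _) (fun r v hr => qt_smul _ _ hr v)]
  have h2 : ∫ v in ballB (innerB g x), qt (innerB g₁ x) (innerB g x) v *
      (qt (innerB g x) (innerB g₁ x) v)⁻¹ ^ n =
      volume.real (ballB (innerB g x)) * S g g₁ (n + 1) x := by
    unfold S
    rw [sphAvg_eq]
    unfold avgB
    rw [mul_div_cancel₀ _ hV.ne']
    congr 1
    funext v
    refine Eq.trans ?_ (radial_inv_pow g g₁ (k := n + 1) (by omega) x v).symm
    rw [← qt_inv, pow_succ, mul_comm]
  rw [h2]
  field_simp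

/-- the densities in a chart -/
theorem dens_eq (hn : 1 ≤ n) (g g₁ : RMetric (EV n) M) (c : M) {x : M}
    (hx : x ∈ (chartAt (EV n) c).source) :
    dens g₁ c (chartAt (EV n) c x) = (S g g₁ n x)⁻¹ * dens g c (chartAt (EV n) c x) := by
  have hu := (chartAt (EV n) c).map_source hx
  set u := chartAt (EV n) c x with hud
  obtain ⟨k, hk, hkb⟩ := ((mt g).isMetricOn c).lower_bound hu
  have hLB : LB (coefL g c u) k := ⟨hk, hkb.self_of_nhds⟩
  have h1 := volume_change hn (B := coefL g c u) (B₁ := coefL g₁ c u)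
    (fun _ hv => coefL_pos g c hu hv) (fun _ hv => coefL_pos g₁ c hu hv)
  have h2 : ∫ v in ballB (coefL g c u), (qt (coefL g c u) (coefL g₁ c u) v)⁻¹ ^ n =
      volume.real (ballB (coefL g c u)) * S g g₁ n x := by
    unfold S
    rw [sphAvg_chart g _ c hx]
    unfold avgB
    rw [mul_div_cancel₀ _ hLB.volume_real_pos.ne']
    congr 1
    funext v
    refine Eq.trans ?_ (radial_inv_pow g g₁ hn x (Dc c x v)).symm
    unfold qt
    rw [innerB_Dc g c hx v v, innerB_Dc g₁ c hx v v]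
  rw [h2, volume_real_ballB (coefL_symm g c hu) (fun _ hv => coefL_pos g c hu hv),
    volume_real_ballB (coefL_symm g₁ c hu) (fun _ hv => coefL_pos g₁ c hu hv)] at h1
  have hd := dens_pos g c hu
  have hd₁ := dens_pos g₁ c hu
  change volume.real (Metric.ball (0 : EV n) 1) / dens g₁ c u =
    volume.real (Metric.ball (0 : EV n) 1) / dens g c u * S g g₁ n x at h1
  have hω := ball_pos n
  have hS := S_pos hn g g₁ x
  field_simp at h1 ⊢
  linarith

variable [MeasurableSpace M] [BorelSpace M]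

theorem isRiemVol_second (hn : 1 ≤ n) (g g₁ : RMetric (EV n) M) {μ : Measure M}
    (hμ : IsRiemVol g μ) :
    IsRiemVol g₁ (μ.withDensity fun x => ENNReal.ofReal (S g g₁ n x)⁻¹) := by
  rw [isRiemVol_iff]
  intro a s hs hsub
  have hfm : Measurable fun x => ENNReal.ofReal (S g g₁ n x)⁻¹ :=
    ((continuous_S hn g g₁ n).inv₀ fun x => (S_pos hn g g₁ x).ne').measurable.ennreal_ofReal
  rw [withDensity_apply _ hs]
  have h1 := hμ.lintegral_source a
    (h := s.indicator fun x => ENNReal.ofReal (S g g₁ n x)⁻¹) (hfm.indicator hs)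
  have h2 : ∫⁻ x in (chartAt (EV n) a).source,
      s.indicator (fun x => ENNReal.ofReal (S g g₁ n x)⁻¹) x ∂μ =
      ∫⁻ x in s, ENNReal.ofReal (S g g₁ n x)⁻¹ ∂μ := by
    rw [lintegral_indicator hs, Measure.restrict_restrict hs, inter_eq_self_of_subset_left hsub]
  rw [← h2, h1]
  set e := chartAt (EV n) a with he
  have him : MeasurableSet (e '' s) := measurableSet_chart_image a hs hsub
  have hsubT : e '' s ⊆ e.target := by
    rintro _ ⟨x, hx, rfl⟩
    exact e.map_source (hsub hx)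
  have h3 : ∫⁻ y in e '' s, ENNReal.ofReal (dens g₁ a y) =
      ∫⁻ y in e.target, (e '' s).indicator (fun y => ENNReal.ofReal (dens g₁ a y)) y := by
    rw [lintegral_indicator him, Measure.restrict_restrict him, inter_eq_self_of_subset_left hsubT]
  rw [h3]
  refine setLIntegral_congr_fun e.open_target.measurableSet fun y hy => ?_
  by_cases hys : y ∈ e '' s
  · obtain ⟨x, hx, rfl⟩ := hys
    have hx' : e.symm (e x) = x := e.left_inv (hsub hx)
    simp only [hx']
    rw [indicator_of_mem hx, indicator_of_mem (mem_image_of_mem _ hx),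
      dens_eq hn g g₁ a (hsub hx), ← ENNReal.ofReal_mul (inv_pos.2 (S_pos hn g g₁ x)).le]
  · have hns : e.symm y ∉ s := fun hc => hys ⟨e.symm y, hc, e.right_inv hy⟩
    rw [indicator_of_notMem hns, indicator_of_notMem hys, zero_mul]

/-- integrals for the second volume -/
theorem integral_second (hn : 1 ≤ n) (g g₁ : RMetric (EV n) M) {μ μ₁ : Measure M}
    (hμ : IsRiemVol g μ) (hμ₁ : IsRiemVol g₁ μ₁) (f : M → ℝ) :
    ∫ x, f x ∂μ₁ = ∫ x, (S g g₁ n x)⁻¹ * f x ∂μ := by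
  have hfm : Measurable fun x => ENNReal.ofReal (S g g₁ n x)⁻¹ :=
    ((continuous_S hn g g₁ n).inv₀ fun x => (S_pos hn g g₁ x).ne').measurable.ennreal_ofReal
  rw [hμ₁.unique (isRiemVol_second hn g g₁ hμ),
    integral_withDensity_eq_integral_toReal_smul hfm
      (ae_of_all _ fun x => ENNReal.ofReal_lt_top)]
  refine integral_congr_ae (ae_of_all _ fun x => ?_)
  simp only [smul_eq_mul]
  rw [ENNReal.toReal_ofReal (inv_pos.2 (S_pos hn g g₁ x)).le]

theorem vol_second (hn : 1 ≤ n) (g g₁ : RMetric (EV n) M) {μ μ₁ : Measure M}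
    (hμ : IsRiemVol g μ) (hμ₁ : IsRiemVol g₁ μ₁) :
    μ₁.real univ = ∫ x, (S g g₁ n x)⁻¹ ∂μ := by
  have h2 := integral_second hn g g₁ hμ hμ₁ fun _ => 1
  simp only [integral_const, smul_eq_mul, mul_one] at h2
  exact h2

/-- **The exact formulas.** -/
theorem mean_formula (hn : 1 ≤ n) (g g₁ : RMetric (EV n) M) {μ μ₁ : Measure M}
    {m : Measure (UT g)} {m₁ : Measure (UT g₁)} (hμ : IsRiemVol g μ) (hμ₁ : IsRiemVol g₁ μ₁)
    (hm : IsLiouville g μ m) (hm₁ : IsLiouville g₁ μ₁ m₁) :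
    ∫ p, nrm g g₁ p ∂m = (∫ x, sphAvg g (nrm g g₁) x ∂μ) / μ.real univ ∧
    ∫ p, nrm g₁ g p ∂m₁ = (∫ x, S g g₁ (n + 1) x / S g g₁ n x ^ 2 ∂μ) /
      ∫ x, (S g g₁ n x)⁻¹ ∂μ := by
  refine ⟨hm.2 _ (continuous_nrm g g₁), ?_⟩
  rw [hm₁.2 _ (continuous_nrm g₁ g), vol_second hn g g₁ hμ hμ₁, integral_second hn g g₁ hμ hμ₁]
  congr 1
  refine integral_congr_ae (ae_of_all _ fun x => ?_)
  simp only
  have hS := S_pos hn g g₁ x
  rw [sphAvg_second hn g g₁ x]
  field_simp

end Cpt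

end Vale.Agent.P207.R2.H797
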