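import Vale.Agent.P207.R2.H797.Cone

/-!
# P207: the criterion in the mean square
-/

open scoped Manifold ContDiff ENNReal Topology
open Bundle MeasureTheory Set Filter

noncomputable section

namespace Vale.Agent.P207.R2.H797

open Vale.Agent.P207
open Vale.Agent.P255 (RMetric coefIn coefL)

/-- the second order bound of a power -/
theorem pow_le_second {y H : ℝ} (hy : 0 < y) (hH : 1 ≤ H) (hyH : y ≤ H) (k : ℕ) :
    y ^ k ≤ 1 + k * (y - 1) + k ^ 2 * H ^ k * (y - 1) ^ 2 := by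
  induction k with
  | zero => simp
  | succ k ih =>
    have h1 : y ^ (k + 1) = y * (y ^ k - (1 + k * (y - 1))) + k * (y - 1) ^ 2 +
        (1 + (k + 1) * (y - 1)) := by ring
    have h2 : y ^ k - (1 + k * (y - 1)) ≤ k ^ 2 * H ^ k * (y - 1) ^ 2 := by linarith
    have hk : (0 : ℝ) ≤ k := Nat.cast_nonneg k
    have hs : 0 ≤ (y - 1) ^ 2 := sq_nonneg _
    have hHk : 1 ≤ H ^ (k + 1) := one_le_pow₀ hH
    have h3 : y * (y ^ k - (1 + k * (y - 1))) ≤ H * (k ^ 2 * H ^ k * (y - 1) ^ 2) := by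
      calc y * (y ^ k - (1 + k * (y - 1))) ≤ y * (k ^ 2 * H ^ k * (y - 1) ^ 2) :=
            mul_le_mul_of_nonneg_left h2 hy.le
        _ ≤ _ := mul_le_mul_of_nonneg_right hyH (by positivity)
    rw [h1]
    push_cast
    have h4 : H * (k ^ 2 * H ^ k * (y - 1) ^ 2) + k * (y - 1) ^ 2 ≤
        (k + 1) ^ 2 * H ^ (k + 1) * (y - 1) ^ 2 := by
      have h5 : (k : ℝ) * (y - 1) ^ 2 ≤ k * H ^ (k + 1) * (y - 1) ^ 2 := by
        have := mul_le_mul_of_nonneg_left hHk hk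
        rw [mul_one] at this
        exact mul_le_mul_of_nonneg_right this hs
      have h6 : 0 ≤ (k + 1) * H ^ (k + 1) * (y - 1) ^ 2 := by positivity
      calc H * (k ^ 2 * H ^ k * (y - 1) ^ 2) + k * (y - 1) ^ 2
          ≤ H * (k ^ 2 * H ^ k * (y - 1) ^ 2) + k * H ^ (k + 1) * (y - 1) ^ 2 := by linarith
        _ ≤ H * (k ^ 2 * H ^ k * (y - 1) ^ 2) + k * H ^ (k + 1) * (y - 1) ^ 2 +
            (k + 1) * H ^ (k + 1) * (y - 1) ^ 2 := by linarith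
        _ = _ := by ring
    linarith

/-- the second order bound of an inverse power -/
theorem inv_pow_le_second {t H : ℝ} (ht : 0 < t) (hH : 1 ≤ H) (htH : t⁻¹ ≤ H) (k : ℕ) :
    t⁻¹ ^ k ≤ 1 - k * (t - 1) + k * (k + 1) * H ^ (k + 2) * (t - 1) ^ 2 := by
  have hy : 0 < t⁻¹ := inv_pos.2 ht
  have h1 := pow_le_second hy hH htH k
  have hk : (0 : ℝ) ≤ k := Nat.cast_nonneg k
  have h2 : (t⁻¹ - 1) ^ 2 ≤ H ^ 2 * (t - 1) ^ 2 := by
    have h3 : (t⁻¹ - 1) ^ 2 = t⁻¹ ^ 2 * (t - 1) ^ 2 := by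
      have : t⁻¹ * t = 1 := inv_mul_cancel₀ ht.ne'
      have h4 : t⁻¹ - 1 = -(t⁻¹ * (t - 1)) := by rw [mul_sub, this, mul_one]; ring
      rw [h4]
      ring
    rw [h3]
    exact mul_le_mul_of_nonneg_right (pow_le_pow_left₀ hy.le htH 2) (sq_nonneg _)
  have h5 : t⁻¹ - 1 = -(t - 1) + t⁻¹ * (t - 1) ^ 2 := by
    field_simp
    ring
  have h6 : t⁻¹ * (t - 1) ^ 2 ≤ H ^ (k + 2) * (t - 1) ^ 2 := by
    refine mul_le_mul_of_nonneg_right (htH.trans ?_) (sq_nonneg _)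
    calc H = H ^ 1 := (pow_one H).symm
      _ ≤ H ^ (k + 2) := pow_le_pow_right₀ hH (by omega)
  have h7 : (k : ℝ) ^ 2 * H ^ k * (t⁻¹ - 1) ^ 2 ≤ k ^ 2 * H ^ (k + 2) * (t - 1) ^ 2 := by
    calc (k : ℝ) ^ 2 * H ^ k * (t⁻¹ - 1) ^ 2 ≤ k ^ 2 * H ^ k * (H ^ 2 * (t - 1) ^ 2) :=
          mul_le_mul_of_nonneg_left h2 (by positivity)
      _ = _ := by ring
  have h8 : (k : ℝ) * (t⁻¹ - 1) ≤ -(k * (t - 1)) + k * (H ^ (k + 2) * (t - 1) ^ 2) := by
    rw [h5]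
    have := mul_le_mul_of_nonneg_left h6 hk
    calc (k : ℝ) * (-(t - 1) + t⁻¹ * (t - 1) ^ 2) =
        -(k * (t - 1)) + k * (t⁻¹ * (t - 1) ^ 2) := by ring
      _ ≤ _ := by linarith
  calc t⁻¹ ^ k ≤ 1 + k * (t⁻¹ - 1) + k ^ 2 * H ^ k * (t⁻¹ - 1) ^ 2 := h1
    _ ≤ 1 + (-(k * (t - 1)) + k * (H ^ (k + 2) * (t - 1) ^ 2)) +
        k ^ 2 * H ^ (k + 2) * (t - 1) ^ 2 := by linarith
    _ = _ := by ring

/-- powers and differences -/
theorem sub_mul_pow_sub' {a b c : ℝ} (hc : 0 < c) (ha : c ≤ a) (hb : c ≤ b) (j : ℕ) :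
    c ^ j * (a - b) ^ 2 ≤ (a - b) * (a ^ (j + 1) - b ^ (j + 1)) := by
  induction j with
  | zero => simp; ring_nf; exact le_rfl
  | succ j ih =>
    have h1 : (a - b) * (a ^ (j + 1 + 1) - b ^ (j + 1 + 1)) =
        a * ((a - b) * (a ^ (j + 1) - b ^ (j + 1))) + b ^ (j + 1) * (a - b) ^ 2 := by ring
    rw [h1]
    have h2 : c * (c ^ j * (a - b) ^ 2) ≤ a * ((a - b) * (a ^ (j + 1) - b ^ (j + 1))) :=
      mul_le_mul ha ih (by positivity) (by linarith)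
    have h3 : 0 ≤ b ^ (j + 1) * (a - b) ^ 2 := by
      have : 0 ≤ b := by linarith
      positivity
    calc c ^ (j + 1) * (a - b) ^ 2 = c * (c ^ j * (a - b) ^ 2) := by ring
      _ ≤ _ := by linarith

/-- Chebyshev's inequality with the variance -/
theorem chebyshev_var' {X : Type} [TopologicalSpace X] [CompactSpace X] [MeasurableSpace X]
    [BorelSpace X] (μ : Measure X) [IsFiniteMeasure μ] {f : X → ℝ} (hf : Continuous f) {c : ℝ}
    (hc : 0 < c) (hf2 : ∀ x, c ≤ f x) (j : ℕ) (hV : 0 < μ.real univ) :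
    (∫ x, f x ∂μ) * (∫ x, f x ^ (j + 1) ∂μ) + μ.real univ * (c ^ j *
      ∫ x, (f x - (∫ y, f y ∂μ) / μ.real univ) ^ 2 ∂μ) ≤
        μ.real univ * ∫ x, f x ^ (j + 2) ∂μ := by
  have hint : ∀ {h : X → ℝ}, Continuous h → Integrable h μ := fun hh =>
    hh.integrable_of_hasCompactSupport (HasCompactSupport.of_compactSpace _)
  set V := μ.real univ with hVd
  set s := (∫ y, f y ∂μ) / V with hs
  have hsV : ∫ x, f x ∂μ = s * V := by rw [hs, div_mul_cancel₀ _ hV.ne']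
  have hs2 : c ≤ s := by
    rw [hs, le_div_iff₀ hV]
    have h1 : ∫ _ : X, c ∂μ ≤ ∫ x, f x ∂μ :=
      integral_mono (integrable_const _) (hint hf) hf2
    rw [integral_const, smul_eq_mul] at h1
    linarith
  have i1 : Integrable (fun x => f x ^ (j + 2)) μ := hint (hf.pow _)
  have i2 : Integrable (fun x => s * f x ^ (j + 1)) μ := hint (continuous_const.mul (hf.pow _))
  have i3 : Integrable (fun x => s ^ (j + 1) * f x) μ := hint (continuous_const.mul hf)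
  have i4 : Integrable (fun _ : X => s ^ (j + 2)) μ := integrable_const _
  have hI : ∫ x, (f x - s) * (f x ^ (j + 1) - s ^ (j + 1)) ∂μ =
      ((∫ x, f x ^ (j + 2) ∂μ) - s * ∫ x, f x ^ (j + 1) ∂μ) -
        (s ^ (j + 1) * (∫ x, f x ∂μ) - V * s ^ (j + 2)) := by
    calc ∫ x, (f x - s) * (f x ^ (j + 1) - s ^ (j + 1)) ∂μ =
        ∫ x, ((f x ^ (j + 2) - s * f x ^ (j + 1)) - (s ^ (j + 1) * f x - s ^ (j + 2))) ∂μ := by
          congr 1
          funext x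
          ring
      _ = (∫ x, (f x ^ (j + 2) - s * f x ^ (j + 1)) ∂μ) -
          ∫ x, (s ^ (j + 1) * f x - s ^ (j + 2)) ∂μ := integral_sub (i1.sub i2) (i3.sub i4)
      _ = _ := by
          rw [integral_sub i1 i2, integral_sub i3 i4, integral_const_mul, integral_const_mul,
            integral_const, smul_eq_mul]
  have h1 : s ^ (j + 1) * (s * V) - V * s ^ (j + 2) = 0 := by ring
  rw [hsV, h1, sub_zero] at hI
  have h2 : c ^ j * ∫ x, (f x - s) ^ 2 ∂μ ≤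
      ∫ x, (f x - s) * (f x ^ (j + 1) - s ^ (j + 1)) ∂μ := by
    rw [← integral_const_mul]
    refine integral_mono (hint (continuous_const.mul ((hf.sub continuous_const).pow 2)))
      (hint ((hf.sub continuous_const).mul ((hf.pow _).sub continuous_const))) fun x => ?_
    exact sub_mul_pow_sub' hc (hf2 x) hs2 j
  rw [hI] at h2
  rw [hsV]
  have h3 := mul_le_mul_of_nonneg_left h2 hV.le
  calc s * V * (∫ x, f x ^ (j + 1) ∂μ) + V * (c ^ j * ∫ x, (f x - s) ^ 2 ∂μ)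
      ≤ s * V * (∫ x, f x ^ (j + 1) ∂μ) +
        V * ((∫ x, f x ^ (j + 2) ∂μ) - s * ∫ x, f x ^ (j + 1) ∂μ) := by linarith
    _ = _ := by ring

variable {n : ℕ} {M : Type} [TopologicalSpace M] [ChartedSpace (EV n) M]
  [IsManifold 𝓘(ℝ, EV n) ∞ M] [CompactSpace M] [T2Space M]

/-- the variance of the stretch over the unit sphere at `x` -/
def fv (g g₁ : RMetric (EV n) M) (x : M) : ℝ :=
  sphAvg g (fun p => (nrm g g₁ p - U g g₁ p.pt) ^ 2) x

theorem continuous_dev (hn : 1 ≤ n) (g g₁ : RMetric (EV n) M) :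
    Continuous fun p : UT g => (nrm g g₁ p - U g g₁ p.pt) ^ 2 :=
  (((continuous_nrm g g₁).sub ((continuous_U hn g g₁).comp (continuous_pt g))).pow 2)

theorem continuous_fv (hn : 1 ≤ n) (g g₁ : RMetric (EV n) M) : Continuous (fv g g₁) :=
  continuous_sphAvg hn (continuous_dev hn g g₁)

theorem S_le_second (hn : 1 ≤ n) {g g₁ : RMetric (EV n) M} {H a : ℝ} (hH : 1 ≤ H) (ha : 0 < a)
    (h1 : ∀ p : UT g, a ≤ nrm g g₁ p) (h2 : ∀ x, U g g₁ x ≤ H * a) (k : ℕ) (x : M) :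
    S g g₁ k x ≤ (U g g₁ x)⁻¹ ^ k *
      (1 + k * (k + 1) * H ^ (k + 2) * ((U g g₁ x)⁻¹ ^ 2 * fv g g₁ x)) := by
  have hU := U_pos hn g g₁ x
  set L := (U g g₁ x)⁻¹ ^ k with hL
  set c := (k : ℝ) * (k + 1) * H ^ (k + 2) with hc
  have hf : (fun p : UT g => (L * (1 + k) + (-(L * k * (U g g₁ x)⁻¹)) * nrm g g₁ p) +
      L * c * (U g g₁ x)⁻¹ ^ 2 * (nrm g g₁ p - U g g₁ p.pt) ^ 2) =
      (fun p => L * (1 + k) + (-(L * k * (U g g₁ x)⁻¹)) * nrm g g₁ p) +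
      (L * c * (U g g₁ x)⁻¹ ^ 2) • fun p => (nrm g g₁ p - U g g₁ p.pt) ^ 2 := rfl
  have c1 : Continuous fun p : UT g =>
      L * (1 + k) + (-(L * k * (U g g₁ x)⁻¹)) * nrm g g₁ p :=
    continuous_const.add (continuous_const.mul (continuous_nrm g g₁))
  have c2 : Continuous fun p : UT g => L * c * (U g g₁ x)⁻¹ ^ 2 *
      (nrm g g₁ p - U g g₁ p.pt) ^ 2 := continuous_const.mul (continuous_dev hn g g₁)
  have h3 : S g g₁ k x ≤ sphAvg g (fun p : UT g =>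
      (L * (1 + k) + (-(L * k * (U g g₁ x)⁻¹)) * nrm g g₁ p) +
      L * c * (U g g₁ x)⁻¹ ^ 2 * (nrm g g₁ p - U g g₁ p.pt) ^ 2) x := by
    refine sphAvg_mono g (continuous_inv_pow g g₁ k) (c1.add c2) x fun p hp => ?_
    have hp0 := nrm_pos g g₁ p
    have h4 : (nrm g g₁ p / U g g₁ x)⁻¹ ≤ H := by
      rw [inv_div, div_le_iff₀ hp0]
      exact (h2 x).trans (mul_le_mul_of_nonneg_left (h1 p) (by linarith))
    have h5 := inv_pow_le_second (t := nrm g g₁ p / U g g₁ x) (by positivity) hH h4 k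
    have h6 : (nrm g g₁ p)⁻¹ ^ k = L * (nrm g g₁ p / U g g₁ x)⁻¹ ^ k := by
      rw [hL, ← mul_pow, inv_div, ← div_eq_inv_mul, div_right_comm, div_self hU.ne', one_div]
    rw [h6]
    have h7 : 0 ≤ L := by positivity
    change _ ≤ (L * (1 + k) + (-(L * k * (U g g₁ x)⁻¹)) * nrm g g₁ p) +
      L * c * (U g g₁ x)⁻¹ ^ 2 * (nrm g g₁ p - U g g₁ p.pt) ^ 2
    rw [hp]
    refine (mul_le_mul_of_nonneg_left h5 h7).trans_eq ?_
    have h8 : nrm g g₁ p - U g g₁ x = U g g₁ x * (nrm g g₁ p / U g g₁ x - 1) := by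
      field_simp
    have h9 : (U g g₁ x)⁻¹ * U g g₁ x = 1 := inv_mul_cancel₀ hU.ne'
    have h10 : (U g g₁ x)⁻¹ ^ 2 * (U g g₁ x * (nrm g g₁ p / U g g₁ x - 1)) ^ 2 =
        (nrm g g₁ p / U g g₁ x - 1) ^ 2 := by
      rw [← mul_pow, ← mul_assoc, h9, one_mul]
    rw [h8, mul_assoc (L * c), h10]
    ring
  rw [hf, sphAvg_add c1 (continuous_dev hn g g₁ |>.const_smul _) x, sphAvg_smul,
    sphAvg_affine hn] at h3
  refine h3.trans_eq ?_
  change _ + L * c * (U g g₁ x)⁻¹ ^ 2 * fv g g₁ x = _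
  have h8 : (U g g₁ x)⁻¹ * U g g₁ x = 1 := inv_mul_cancel₀ hU.ne'
  have h9 : -(L * k * (U g g₁ x)⁻¹) * U g g₁ x = -(L * k) := by
    calc -(L * k * (U g g₁ x)⁻¹) * U g g₁ x = -(L * k * ((U g g₁ x)⁻¹ * U g g₁ x)) := by ring
      _ = _ := by rw [h8, mul_one]
  rw [h9]
  ring

end Vale.Agent.P207.R2.H797
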