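import Vale.Agent.P207.Bridge

/-!
# P207: integrals of homogeneous functions over the unit balls of two quadratic forms
-/

open scoped Manifold ContDiff ENNReal Topology
open Bundle MeasureTheory Set Filter

noncomputable section

namespace Vale.Agent.P207.R2.H797

open Vale.Agent.P207
open Vale.Agent.P255 (RMetric)

variable {n : ℕ}

theorem lintegral_polar (hn : 1 ≤ n) {h : EV n → ℝ≥0∞} (hh : Measurable h) :
    ∫⁻ v, h v = ∫⁻ z : Metric.sphere (0 : EV n) 1, ∫⁻ r : Ioi (0 : ℝ), h (r.1 • z.1)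
      ∂Measure.volumeIoiPow (n - 1) ∂(volume : Measure (EV n)).toSphere := by
  have : Nonempty (Fin n) := ⟨⟨0, hn⟩⟩
  have : Nontrivial (EV n) := by
    unfold EV
    infer_instance
  have hmp := (volume : Measure (EV n)).measurePreserving_homeomorphUnitSphereProd
  rw [finrank_euclideanSpace_fin] at hmp
  have h1 : ∫⁻ v, h v = ∫⁻ x : ({(0 : EV n)}ᶜ : Set (EV n)), h x.1
      ∂((volume : Measure (EV n)).comap (↑)) := by
    have h2 := lintegral_subtype_comap (μ := (volume : Measure (EV n)))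
      (measurableSet_singleton (0 : EV n)).compl h
    rw [h2, restrict_compl_singleton]
  rw [h1]
  have hm : Measurable fun p : Metric.sphere (0 : EV n) 1 × Ioi (0 : ℝ) => h (p.2.1 • p.1.1) := by
    refine hh.comp ?_
    exact ((continuous_subtype_val.comp continuous_snd).smul
      (continuous_subtype_val.comp continuous_fst)).measurable
  rw [← lintegral_prod _ hm.aemeasurable, ← hmp.lintegral_comp hm]
  refine lintegral_congr fun x => ?_
  have hx : ‖x.1‖ ≠ 0 := norm_ne_zero_iff.2 x.2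
  congr 1
  simp only [homeomorphUnitSphereProd_apply_snd_coe, homeomorphUnitSphereProd_apply_fst_coe]
  rw [smul_smul, mul_inv_cancel₀ hx, one_smul]

/-- a homogeneous function over the unit ball of a form, in polar coordinates -/
theorem lintegral_ballB (hn : 1 ≤ n) {B : EV n →L[ℝ] EV n →L[ℝ] ℝ}
    (hB : ∀ v, v ≠ 0 → 0 < B v v) {F : EV n → ℝ≥0∞} (hF : Measurable F)
    (hh : ∀ (r : ℝ) (v : EV n), 0 < r → F (r • v) = F v) :
    ∫⁻ v in ballB B, F v = ∫⁻ z : Metric.sphere (0 : EV n) 1,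
      F z.1 * ENNReal.ofReal ((Real.sqrt (B z.1 z.1))⁻¹ ^ n / n)
        ∂(volume : Measure (EV n)).toSphere := by
  rw [← lintegral_indicator (measurableSet_ballB B),
    lintegral_polar hn (hF.indicator (measurableSet_ballB B))]
  refine lintegral_congr fun z => ?_
  have hz : z.1 ≠ 0 := by
    intro h0
    have h1 := mem_sphere_zero_iff_norm.1 z.2
    rw [h0, norm_zero] at h1
    exact zero_ne_one h1
  have hp := hB _ hz
  have hs := Real.sqrt_pos.2 hp
  set R : Ioi (0 : ℝ) := ⟨(Real.sqrt (B z.1 z.1))⁻¹, inv_pos.2 hs⟩ with hR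
  have h1 : ∀ r : Ioi (0 : ℝ), (ballB B).indicator F (r.1 • z.1) =
      (Iio R).indicator (fun _ => F z.1) r := by
    intro r
    have hr : 0 < r.1 := r.2
    have h2 : B (r.1 • z.1) (r.1 • z.1) = r.1 ^ 2 * B z.1 z.1 := by
      simp only [map_smul, smul_apply, smul_eq_mul]
      ring
    have h3 : r.1 • z.1 ∈ ballB B ↔ r ∈ Iio R := by
      change B (r.1 • z.1) (r.1 • z.1) < 1 ↔ r < R
      rw [h2, ← Subtype.coe_lt_coe]
      change _ ↔ r.1 < (Real.sqrt (B z.1 z.1))⁻¹
      rw [lt_inv_comm₀ hr hs, Real.sqrt_lt' (inv_pos.2 hr), inv_pow, ← one_div,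
        lt_div_iff₀ (by positivity), mul_comm]
    by_cases hc : r ∈ Iio R
    · rw [indicator_of_mem (h3.2 hc), indicator_of_mem hc, hh _ _ hr]
    · rw [indicator_of_notMem (fun h => hc (h3.1 h)), indicator_of_notMem hc]
  simp only [h1]
  rw [lintegral_indicator measurableSet_Iio, setLIntegral_const,
    Measure.volumeIoiPow_apply_Iio]
  congr 2
  have h4 : n - 1 + 1 = n := by omega
  have h5 : ((n - 1 : ℕ) : ℝ) + 1 = n := by
    rw [← Nat.cast_succ]
    congr 1
  rw [h4, h5]

/-- **Change of the ball.** -/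
theorem lintegral_change (hn : 1 ≤ n) {B B₁ : EV n →L[ℝ] EV n →L[ℝ] ℝ}
    (hB : ∀ v, v ≠ 0 → 0 < B v v) (hB₁ : ∀ v, v ≠ 0 → 0 < B₁ v v) {F : EV n → ℝ≥0∞}
    (hF : Measurable F) (hh : ∀ (r : ℝ) (v : EV n), 0 < r → F (r • v) = F v) :
    ∫⁻ v in ballB B₁, F v = ∫⁻ v in ballB B, F v *
      ENNReal.ofReal ((Real.sqrt (B₁ v v) / Real.sqrt (B v v))⁻¹ ^ n) := by
  have hm : Measurable fun v : EV n => F v *
      ENNReal.ofReal ((Real.sqrt (B₁ v v) / Real.sqrt (B v v))⁻¹ ^ n) := by
    refine hF.mul (Measurable.ennreal_ofReal ?_)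
    exact (((continuous_quad B₁).measurable.sqrt.div
      (continuous_quad B).measurable.sqrt).inv).pow_const n
  have hsq : ∀ (A : EV n →L[ℝ] EV n →L[ℝ] ℝ) (r : ℝ) (v : EV n), 0 < r →
      Real.sqrt (A (r • v) (r • v)) = r * Real.sqrt (A v v) := by
    intro A r v hr
    have h2 : A (r • v) (r • v) = r ^ 2 * A v v := by
      simp only [map_smul, smul_apply, smul_eq_mul]
      ring
    rw [h2, Real.sqrt_mul (sq_nonneg _), Real.sqrt_sq hr.le]
  rw [lintegral_ballB hn hB₁ hF hh, lintegral_ballB hn hB hm]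
  · refine lintegral_congr fun z => ?_
    have hz : z.1 ≠ 0 := by
      intro h0
      have h1 := mem_sphere_zero_iff_norm.1 z.2
      rw [h0, norm_zero] at h1
      exact zero_ne_one h1
    have hs := Real.sqrt_pos.2 (hB _ hz)
    have hs₁ := Real.sqrt_pos.2 (hB₁ _ hz)
    rw [mul_assoc, ← ENNReal.ofReal_mul (by positivity)]
    congr 2
    rw [mul_div_assoc', ← mul_pow]
    congr 2
    field_simp
  · intro r v hr
    rw [hh r v hr, hsq B r v hr, hsq B₁ r v hr, mul_div_mul_left _ _ hr.ne']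

end Vale.Agent.P207.R2.H797
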